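import Vale.Agent.Lib.P226.Dust.Key

/-!
# P226 / Dust: a tiny cell and the remainder against a function dominating a disc of linear forms
-/

open MeasureTheory ProbabilityTheory
open scoped RealInnerProductSpace

namespace Vale.Agent.Lib.P226

variable {E : Type*} [NormedAddCommGroup E] [InnerProductSpace ℝ E] [FiniteDimensional ℝ E]
  [MeasurableSpace E] [BorelSpace E]

omit [FiniteDimensional ℝ E] [MeasurableSpace E] [BorelSpace E] in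
theorem disc_nmax_le (e₁ e₂ : E) (H : E → ℝ)
    (hdisc : ∀ s t : ℝ, s ^ 2 + t ^ 2 ≤ 1 / 100 → ∀ x : E, s * ⟪e₁, x⟫ + t * ⟪e₂, x⟫ ≤ H x)
    (x : E) : 1 / 10 * nmax e₁ e₂ x ≤ H x := by
  have k1 := hdisc (1 / 10) 0 (by norm_num) x
  have k2 := hdisc (-1 / 10) 0 (by norm_num) x
  have k3 := hdisc 0 (1 / 10) (by norm_num) x
  have k4 := hdisc 0 (-1 / 10) (by norm_num) x
  have ha : 1 / 10 * |⟪e₁, x⟫| ≤ H x := by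
    rcases abs_cases ⟪e₁, x⟫ with ⟨h, _⟩ | ⟨h, _⟩ <;> rw [h] <;> linarith
  have hb : 1 / 10 * |⟪e₂, x⟫| ≤ H x := by
    rcases abs_cases ⟪e₂, x⟫ with ⟨h, _⟩ | ⟨h, _⟩ <;> rw [h] <;> linarith
  rw [nmax_def]
  rcases max_cases |⟪e₁, x⟫| |⟪e₂, x⟫| with ⟨h, _⟩ | ⟨h, _⟩ <;> rw [h] <;> assumption

omit [FiniteDimensional ℝ E] [MeasurableSpace E] [BorelSpace E] in
theorem disc_half_le (e₁ e₂ : E) (H : E → ℝ)
    (hdisc : ∀ s t : ℝ, s ^ 2 + t ^ 2 ≤ 1 / 100 → ∀ x : E, s * ⟪e₁, x⟫ + t * ⟪e₂, x⟫ ≤ H x)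
    {s t : ℝ} (hst : s ^ 2 + t ^ 2 ≤ 1 / 400) (x : E) :
    s * ⟪e₁, x⟫ + t * ⟪e₂, x⟫ + 1 / 20 * nmax e₁ e₂ x ≤ H x := by
  have k1 := hdisc (2 * s) (2 * t) (by nlinarith) x
  have k2 := disc_nmax_le e₁ e₂ H hdisc x
  linarith

omit [FiniteDimensional ℝ E] [MeasurableSpace E] [BorelSpace E] in
theorem cells_decomp (e₁ e₂ z : E) (h1 : ‖e₁‖ = 1) (h2 : ‖e₂‖ = 1) (h12 : ⟪e₁, e₂⟫ = 0) :
    ‖z‖ ^ 2 = ⟪e₁, z⟫ ^ 2 + ⟪e₂, z⟫ ^ 2 + ‖z - ⟪e₁, z⟫ • e₁ - ⟪e₂, z⟫ • e₂‖ ^ 2 := by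
  have e11 : ⟪e₁, e₁⟫ = 1 := by rw [real_inner_self_eq_norm_sq, h1]; norm_num
  have e22 : ⟪e₂, e₂⟫ = 1 := by rw [real_inner_self_eq_norm_sq, h2]; norm_num
  have e21 : ⟪e₂, e₁⟫ = 0 := by rw [real_inner_comm]; exact h12
  have hz1 : ⟪z, e₁⟫ = ⟪e₁, z⟫ := real_inner_comm _ _
  have hz2 : ⟪z, e₂⟫ = ⟪e₂, z⟫ := real_inner_comm _ _
  rw [← real_inner_self_eq_norm_sq z,
    ← real_inner_self_eq_norm_sq (z - ⟪e₁, z⟫ • e₁ - ⟪e₂, z⟫ • e₂)]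
  simp only [inner_sub_left, inner_sub_right, real_inner_smul_left, real_inner_smul_right,
    e11, e22, h12, e21, hz1, hz2]
  ring

theorem cells_setIntegral_lin (A : Set E) (e₁ e₂ : E) (s t : ℝ) :
    ∫ x in A, (s * ⟪e₁, x⟫ + t * ⟪e₂, x⟫) ∂(stdGaussian E) =
      s * ⟪e₁, zmom A⟫ + t * ⟪e₂, zmom A⟫ := by
  have i1 : Integrable (fun x : E => s * ⟪e₁, x⟫) ((stdGaussian E).restrict A) :=
    ((integrable_inner e₁).integrableOn).const_mul s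
  have i2 : Integrable (fun x : E => t * ⟪e₂, x⟫) ((stdGaussian E).restrict A) :=
    ((integrable_inner e₂).integrableOn).const_mul t
  rw [inner_zmom, inner_zmom, integral_add i1 i2, integral_const_mul, integral_const_mul]

omit [FiniteDimensional ℝ E] [MeasurableSpace E] [BorelSpace E] in
theorem cells_norm_le (e₁ e₂ z : E) (h1 : ‖e₁‖ = 1) (h2 : ‖e₂‖ = 1) (h12 : ⟪e₁, e₂⟫ = 0) :
    ‖z - ⟪e₁, z⟫ • e₁ - ⟪e₂, z⟫ • e₂‖ ≤ ‖z‖ := by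
  have hd := cells_decomp e₁ e₂ z h1 h2 h12
  have hq0 := norm_nonneg (z - ⟪e₁, z⟫ • e₁ - ⟪e₂, z⟫ • e₂)
  have hz0 := norm_nonneg z
  by_contra hcon
  have hlt : ‖z‖ < ‖z - ⟪e₁, z⟫ • e₁ - ⟪e₂, z⟫ • e₂‖ := lt_of_not_ge hcon
  nlinarith [sq_nonneg ⟪e₁, z⟫, sq_nonneg ⟪e₂, z⟫]

/-- A cell with a very small first moment: what `H` collects on the cell exceeds the squared
norm of its first moment, with room to spare. -/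
theorem tiny_cell_bound (B : Set E) (hB : MeasurableSet B) (e₁ e₂ : E)
    (h1 : ‖e₁‖ = 1) (h2 : ‖e₂‖ = 1) (h12 : ⟪e₁, e₂⟫ = 0) (H : E → ℝ)
    (hH : Integrable H (stdGaussian E))
    (hdisc : ∀ s t : ℝ, s ^ 2 + t ^ 2 ≤ 1 / 100 → ∀ x : E, s * ⟪e₁, x⟫ + t * ⟪e₂, x⟫ ≤ H x)
    (hu : ‖zmom B‖ ≤ 1 / 10 ^ 5) :
    ‖zmom B‖ ^ 2 + 1 / 40 * ∫ x in B, nmax e₁ e₂ x ∂(stdGaussian E)
      ≤ ∫ x in B, H x ∂(stdGaussian E) := by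
  have hd := cells_decomp e₁ e₂ (zmom B) h1 h2 h12
  have hqle := cells_norm_le e₁ e₂ (zmom B) h1 h2 h12
  have hu0 := norm_nonneg (zmom B)
  have hq0 := norm_nonneg (zmom B - ⟪e₁, zmom B⟫ • e₁ - ⟪e₂, zmom B⟫ • e₂)
  have husq : ‖zmom B‖ ^ 2 ≤ 1 / 400 := by nlinarith
  have hqq : 0 ≤ ‖zmom B - ⟪e₁, zmom B⟫ • e₁ - ⟪e₂, zmom B⟫ • e₂‖ ^ 2 := by positivity
  have hst : ⟪e₁, zmom B⟫ ^ 2 + ⟪e₂, zmom B⟫ ^ 2 ≤ 1 / 400 := by linarith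
  have hperp := perp_sq_le B hB e₁ e₂ (zmom B - ⟪e₁, zmom B⟫ • e₁ - ⟪e₂, zmom B⟫ • e₂)
    h1 h2 h12 rfl (K := 1) (ρ := 1 / 40) (by norm_num) (by norm_num) (by
      have : ‖zmom B - ⟪e₁, zmom B⟫ • e₁ - ⟪e₂, zmom B⟫ • e₂‖ ≤ 1 / 10 ^ 5 := le_trans hqle hu
      norm_num at this ⊢
      linarith)
  have i1 : IntegrableOn (fun x : E => ⟪e₁, zmom B⟫ * ⟪e₁, x⟫ + ⟪e₂, zmom B⟫ * ⟪e₂, x⟫)
      B (stdGaussian E) :=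
    (((integrable_inner e₁).integrableOn).const_mul _).add
      (((integrable_inner e₂).integrableOn).const_mul _)
  have i2 : IntegrableOn (fun x : E => 1 / 20 * nmax e₁ e₂ x) B (stdGaussian E) :=
    ((integrable_nmax e₁ e₂).integrableOn).const_mul _
  have hmono : ∫ x in B, (⟪e₁, zmom B⟫ * ⟪e₁, x⟫ + ⟪e₂, zmom B⟫ * ⟪e₂, x⟫
      + 1 / 20 * nmax e₁ e₂ x) ∂(stdGaussian E) ≤ ∫ x in B, H x ∂(stdGaussian E) := by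
    apply integral_mono (i1.add i2) hH.integrableOn
    intro x
    exact disc_half_le e₁ e₂ H hdisc hst x
  have heq : ∫ x in B, (⟪e₁, zmom B⟫ * ⟪e₁, x⟫ + ⟪e₂, zmom B⟫ * ⟪e₂, x⟫
      + 1 / 20 * nmax e₁ e₂ x) ∂(stdGaussian E) =
      ⟪e₁, zmom B⟫ * ⟪e₁, zmom B⟫ + ⟪e₂, zmom B⟫ * ⟪e₂, zmom B⟫
        + 1 / 20 * ∫ x in B, nmax e₁ e₂ x ∂(stdGaussian E) := by
    rw [integral_add i1 i2, cells_setIntegral_lin, integral_const_mul]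
  rw [heq] at hmono
  nlinarith

/-- A set with a small first moment: a third of the squared norm of the first moment is
dominated by the in-plane size of the set. -/
theorem rest_bound (R : Set E) (hR : MeasurableSet R) (e₁ e₂ : E)
    (h1 : ‖e₁‖ = 1) (h2 : ‖e₂‖ = 1) (h12 : ⟪e₁, e₂⟫ = 0)
    (hz : ‖zmom R‖ ≤ 2 / 10 ^ 4) :
    ‖zmom R‖ ^ 2 / 3 ≤ 1 / 40 * ∫ x in R, nmax e₁ e₂ x ∂(stdGaussian E) := by
  have hd := cells_decomp e₁ e₂ (zmom R) h1 h2 h12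
  have hqle := cells_norm_le e₁ e₂ (zmom R) h1 h2 h12
  have hz0 := norm_nonneg (zmom R)
  have hI0 : 0 ≤ ∫ x in R, nmax e₁ e₂ x ∂(stdGaussian E) :=
    integral_nonneg (fun x => nmax_nonneg e₁ e₂ x)
  have hs : |⟪e₁, zmom R⟫| ≤ ‖zmom R‖ := by
    have h := abs_real_inner_le_norm e₁ (zmom R)
    rw [h1, one_mul] at h
    exact h
  have ht : |⟪e₂, zmom R⟫| ≤ ‖zmom R‖ := by
    have h := abs_real_inner_le_norm e₂ (zmom R)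
    rw [h2, one_mul] at h
    exact h
  have hperp := perp_sq_le R hR e₁ e₂ (zmom R - ⟪e₁, zmom R⟫ • e₁ - ⟪e₂, zmom R⟫ • e₂)
    h1 h2 h12 rfl (K := 1 / 3) (ρ := 3 / 125) (by norm_num) (by norm_num) (by
      have : ‖zmom R - ⟪e₁, zmom R⟫ • e₁ - ⟪e₂, zmom R⟫ • e₂‖ ≤ 2 / 10 ^ 4 := le_trans hqle hz
      norm_num at this ⊢
      linarith)
  have i1 : IntegrableOn (fun x : E => ⟪e₁, zmom R⟫ * ⟪e₁, x⟫ + ⟪e₂, zmom R⟫ * ⟪e₂, x⟫)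
      R (stdGaussian E) :=
    (((integrable_inner e₁).integrableOn).const_mul _).add
      (((integrable_inner e₂).integrableOn).const_mul _)
  have i2 : IntegrableOn (fun x : E => (|⟪e₁, zmom R⟫| + |⟪e₂, zmom R⟫|) * nmax e₁ e₂ x)
      R (stdGaussian E) :=
    ((integrable_nmax e₁ e₂).integrableOn).const_mul _
  have hmono : ∫ x in R, (⟪e₁, zmom R⟫ * ⟪e₁, x⟫ + ⟪e₂, zmom R⟫ * ⟪e₂, x⟫) ∂(stdGaussian E)
      ≤ ∫ x in R, (|⟪e₁, zmom R⟫| + |⟪e₂, zmom R⟫|) * nmax e₁ e₂ x ∂(stdGaussian E) := by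
    apply integral_mono i1 i2
    intro x
    have a1 : ⟪e₁, zmom R⟫ * ⟪e₁, x⟫ ≤ |⟪e₁, zmom R⟫| * |⟪e₁, x⟫| := by
      rw [← abs_mul]
      exact le_abs_self _
    have a2 : ⟪e₂, zmom R⟫ * ⟪e₂, x⟫ ≤ |⟪e₂, zmom R⟫| * |⟪e₂, x⟫| := by
      rw [← abs_mul]
      exact le_abs_self _
    have b1 : |⟪e₁, x⟫| ≤ nmax e₁ e₂ x := le_max_left _ _
    have b2 : |⟪e₂, x⟫| ≤ nmax e₁ e₂ x := le_max_right _ _
    have c1 := mul_le_mul_of_nonneg_left b1 (abs_nonneg ⟪e₁, zmom R⟫)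
    have c2 := mul_le_mul_of_nonneg_left b2 (abs_nonneg ⟪e₂, zmom R⟫)
    show ⟪e₁, zmom R⟫ * ⟪e₁, x⟫ + ⟪e₂, zmom R⟫ * ⟪e₂, x⟫ ≤
      (|⟪e₁, zmom R⟫| + |⟪e₂, zmom R⟫|) * nmax e₁ e₂ x
    linarith
  rw [cells_setIntegral_lin, integral_const_mul] at hmono
  have hcoef : |⟪e₁, zmom R⟫| + |⟪e₂, zmom R⟫| ≤ 4 / 10 ^ 4 := by linarith
  have hprod : (|⟪e₁, zmom R⟫| + |⟪e₂, zmom R⟫|) * ∫ x in R, nmax e₁ e₂ x ∂(stdGaussian E)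
      ≤ 4 / 10 ^ 4 * ∫ x in R, nmax e₁ e₂ x ∂(stdGaussian E) :=
    mul_le_mul_of_nonneg_right hcoef hI0
  nlinarith

end Vale.Agent.Lib.P226
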