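import Vale.Agent.Lib.P226.Dust.Defs

/-!
# P226 / Dust: a nearly equilateral centred triangle contains a disc of radius `1 / 10`
-/

open scoped RealInnerProductSpace

namespace Vale.Agent.Lib.P226

variable {E : Type*} [NormedAddCommGroup E] [InnerProductSpace ℝ E]

/-- Squared norm of a combination of two vectors through their Gram entries. -/
private lemma frame_gram (u v : E) (a b : ℝ) :
    ‖a • u + b • v‖ ^ 2 = a ^ 2 * ‖u‖ ^ 2 + 2 * a * b * ⟪u, v⟫ + b ^ 2 * ‖v‖ ^ 2 := by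
  rw [norm_add_sq_real, norm_smul, norm_smul, real_inner_smul_left, real_inner_smul_right,
    mul_pow, mul_pow, Real.norm_eq_abs, Real.norm_eq_abs, sq_abs, sq_abs]
  ring

/-- Points of the plane of the triangle which are close to the centre are convex combinations
of the vertices; stated through the support function. -/
private lemma frame_disc (w₁ w₂ w₃ : E) (hsum : w₁ + w₂ + w₃ = 0)
    (h11 : 1184 / 10000 ≤ ‖w₁‖ ^ 2) (h22 : 1184 / 10000 ≤ ‖w₂‖ ^ 2)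
    (h12l : -(616 / 10000) ≤ ⟪w₁, w₂⟫) (h12u : ⟪w₁, w₂⟫ ≤ 0)
    (α β : ℝ) (hy : ‖α • w₁ + β • w₂‖ ^ 2 ≤ 1 / 100) (x : E) :
    α * ⟪w₁, x⟫ + β * ⟪w₂, x⟫ ≤ tmax w₁ w₂ w₃ x := by
  rw [frame_gram] at hy
  have hab : α ^ 2 + β ^ 2 ≤ 1 / 5 := by
    nlinarith [mul_nonneg (add_nonneg (sq_nonneg α) (sq_nonneg β))
        (by linarith : (0 : ℝ) ≤ 616 / 10000 + ⟪w₁, w₂⟫),
      mul_nonneg (neg_nonneg.mpr h12u) (sq_nonneg (α - β)),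
      mul_nonneg (sq_nonneg α) (sub_nonneg.mpr h11),
      mul_nonneg (sq_nonneg β) (sub_nonneg.mpr h22)]
  have q1 : (2 * α - β) ^ 2 ≤ 1 := by nlinarith [sq_nonneg (α + 2 * β)]
  have q2 : (2 * β - α) ^ 2 ≤ 1 := by nlinarith [sq_nonneg (β + 2 * α)]
  have q3 : (α + β) ^ 2 ≤ 1 := by nlinarith [sq_nonneg (α - β)]
  have h1 : 0 ≤ 1 + (2 * α - β) := by
    have := (abs_le.mp ((sq_le_one_iff_abs_le_one _).mp q1)).1
    linarith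
  have h2 : 0 ≤ 1 + (2 * β - α) := by
    have := (abs_le.mp ((sq_le_one_iff_abs_le_one _).mp q2)).1
    linarith
  have h3 : 0 ≤ 1 - (α + β) := by
    have := (abs_le.mp ((sq_le_one_iff_abs_le_one _).mp q3)).2
    linarith
  have hc : ⟪w₃, x⟫ = -⟪w₁, x⟫ - ⟪w₂, x⟫ := by
    have h0 : ⟪w₁ + w₂ + w₃, x⟫ = 0 := by rw [hsum, inner_zero_left]
    rw [inner_add_left, inner_add_left] at h0
    linarith
  have ha : ⟪w₁, x⟫ ≤ tmax w₁ w₂ w₃ x := le_max_left _ _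
  have hb : ⟪w₂, x⟫ ≤ tmax w₁ w₂ w₃ x := le_trans (le_max_left _ _) (le_max_right _ _)
  have hc' : ⟪w₃, x⟫ ≤ tmax w₁ w₂ w₃ x := le_trans (le_max_right _ _) (le_max_right _ _)
  rw [hc] at hc'
  nlinarith [mul_nonneg h1 (sub_nonneg.mpr ha), mul_nonneg h2 (sub_nonneg.mpr hb),
    mul_nonneg h3 (sub_nonneg.mpr hc')]

theorem exists_frame (w₁ w₂ w₃ : E) (hsum : w₁ + w₂ + w₃ = 0)
    (h12 : 597 / 1000 ≤ ‖w₁ - w₂‖) (h12' : ‖w₁ - w₂‖ ≤ 3 / 5)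
    (h23 : 597 / 1000 ≤ ‖w₂ - w₃‖) (h23' : ‖w₂ - w₃‖ ≤ 3 / 5)
    (h13 : 597 / 1000 ≤ ‖w₁ - w₃‖) (h13' : ‖w₁ - w₃‖ ≤ 3 / 5) :
    ∃ e₁ e₂ : E, ‖e₁‖ = 1 ∧ ‖e₂‖ = 1 ∧ ⟪e₁, e₂⟫ = 0 ∧
      ∀ s t : ℝ, s ^ 2 + t ^ 2 ≤ 1 / 100 →
        ∀ x : E, s * ⟪e₁, x⟫ + t * ⟪e₂, x⟫ ≤ tmax w₁ w₂ w₃ x := by
  have hw3 : w₃ = -w₁ - w₂ := by
    rw [eq_neg_of_add_eq_zero_right hsum]
    abel
  have e12 : w₁ - w₂ = (1 : ℝ) • w₁ + (-1 : ℝ) • w₂ := by module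
  have e23 : w₂ - w₃ = (1 : ℝ) • w₁ + (2 : ℝ) • w₂ := by
    rw [hw3]
    module
  have e13 : w₁ - w₃ = (2 : ℝ) • w₁ + (1 : ℝ) • w₂ := by
    rw [hw3]
    module
  have C1 := pow_le_pow_left₀ (by norm_num : (0 : ℝ) ≤ 597 / 1000) h12 2
  have C2 := pow_le_pow_left₀ (norm_nonneg _) h12' 2
  have A1 := pow_le_pow_left₀ (by norm_num : (0 : ℝ) ≤ 597 / 1000) h23 2
  have A2 := pow_le_pow_left₀ (norm_nonneg _) h23' 2
  have B1 := pow_le_pow_left₀ (by norm_num : (0 : ℝ) ≤ 597 / 1000) h13 2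
  have B2 := pow_le_pow_left₀ (norm_nonneg _) h13' 2
  rw [e12, frame_gram] at C1 C2
  rw [e23, frame_gram] at A1 A2
  rw [e13, frame_gram] at B1 B2
  norm_num at C1 C2 A1 A2 B1 B2
  have h11 : 1184 / 10000 ≤ ‖w₁‖ ^ 2 := by linarith
  have h22 : 1184 / 10000 ≤ ‖w₂‖ ^ 2 := by linarith
  have h11u : ‖w₁‖ ^ 2 ≤ 1205 / 10000 := by linarith
  have h12l : -(616 / 10000) ≤ ⟪w₁, w₂⟫ := by linarith
  have h12u : ⟪w₁, w₂⟫ ≤ 0 := by linarith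
  have hg11 : (0 : ℝ) < ‖w₁‖ ^ 2 := by linarith
  have hn1 : 0 < ‖w₁‖ := by
    rcases (norm_nonneg w₁).lt_or_eq with h | h
    · exact h
    · rw [← h] at hg11
      norm_num at hg11
  -- the second frame vector before normalisation
  obtain ⟨v, hvdef⟩ : ∃ v : E, v = (-(⟪w₁, w₂⟫ / ‖w₁‖ ^ 2)) • w₁ + (1 : ℝ) • w₂ := ⟨_, rfl⟩
  have hvsq : ‖v‖ ^ 2 * ‖w₁‖ ^ 2 = ‖w₂‖ ^ 2 * ‖w₁‖ ^ 2 - ⟪w₁, w₂⟫ ^ 2 := by
    rw [hvdef, frame_gram]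
    field_simp
    ring
  have hvpos : (0 : ℝ) < ‖v‖ ^ 2 := by
    have hprod : (1184 / 10000 : ℝ) * (1184 / 10000) ≤ ‖w₁‖ ^ 2 * ‖w₂‖ ^ 2 :=
      mul_le_mul h11 h22 (by norm_num) (by linarith)
    have hsq : ⟪w₁, w₂⟫ ^ 2 ≤ (616 / 10000 : ℝ) ^ 2 := by nlinarith
    have hpos : 0 < ‖v‖ ^ 2 * ‖w₁‖ ^ 2 := by
      rw [hvsq]
      nlinarith
    exact (mul_pos_iff_of_pos_right hg11).mp hpos
  have hnv : 0 < ‖v‖ := by
    rcases (norm_nonneg v).lt_or_eq with h | h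
    · exact h
    · rw [← h] at hvpos
      norm_num at hvpos
  have horth : ⟪w₁, v⟫ = 0 := by
    rw [hvdef, inner_add_right, real_inner_smul_right, real_inner_smul_right,
      real_inner_self_eq_norm_sq]
    field_simp
    ring
  refine ⟨‖w₁‖⁻¹ • w₁, ‖v‖⁻¹ • v, ?_, ?_, ?_, ?_⟩
  · rw [norm_smul, norm_inv, norm_norm, inv_mul_cancel₀ hn1.ne']
  · rw [norm_smul, norm_inv, norm_norm, inv_mul_cancel₀ hnv.ne']
  · rw [real_inner_smul_left, real_inner_smul_right, horth, mul_zero, mul_zero]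
  · intro s t hst x
    have hcomb : (s * ‖w₁‖⁻¹ - t * ‖v‖⁻¹ * (⟪w₁, w₂⟫ / ‖w₁‖ ^ 2)) • w₁ + (t * ‖v‖⁻¹) • w₂
        = s • (‖w₁‖⁻¹ • w₁) + t • (‖v‖⁻¹ • v) := by
      rw [hvdef]
      module
    have hnorm : ‖s • (‖w₁‖⁻¹ • w₁) + t • (‖v‖⁻¹ • v)‖ ^ 2 = s ^ 2 + t ^ 2 := by
      rw [frame_gram, norm_smul, norm_inv, norm_norm, inv_mul_cancel₀ hn1.ne', norm_smul,
        norm_inv, norm_norm, inv_mul_cancel₀ hnv.ne', real_inner_smul_left,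
        real_inner_smul_right, horth]
      ring
    have hy : ‖(s * ‖w₁‖⁻¹ - t * ‖v‖⁻¹ * (⟪w₁, w₂⟫ / ‖w₁‖ ^ 2)) • w₁ + (t * ‖v‖⁻¹) • w₂‖ ^ 2
        ≤ 1 / 100 := by
      rw [hcomb, hnorm]
      exact hst
    have hfin := frame_disc w₁ w₂ w₃ hsum h11 h22 h12l h12u _ _ hy x
    have hexp : s * ⟪‖w₁‖⁻¹ • w₁, x⟫ + t * ⟪‖v‖⁻¹ • v, x⟫
        = (s * ‖w₁‖⁻¹ - t * ‖v‖⁻¹ * (⟪w₁, w₂⟫ / ‖w₁‖ ^ 2)) * ⟪w₁, x⟫
          + (t * ‖v‖⁻¹) * ⟪w₂, x⟫ := by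
      rw [real_inner_smul_left, real_inner_smul_left, hvdef, inner_add_left,
        real_inner_smul_left, real_inner_smul_left]
      ring
    rw [hexp]
    exact hfin

end Vale.Agent.Lib.P226
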