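import Vale.Agent.Lib.P226.Dust.Defs

/-!
# P226 / Dust: a nearly optimal triangle has all sides close to `3 / (2 √(2π))`
-/

namespace Vale.Agent.Lib.P226

/-- One side of a nearly equilateral triple with prescribed sum of squares. -/
theorem sides_one {a b c : ℝ} (hab : (a - b) ^ 2 < 18 / 10 ^ 8)
    (hac : (a - c) ^ 2 < 18 / 10 ^ 8)
    (hlo : 107427 / 100000 < a ^ 2 + b ^ 2 + c ^ 2)
    (hhi : a ^ 2 + b ^ 2 + c ^ 2 ≤ 107433 / 100000) (ha : 0 ≤ a) (hb : 0 ≤ b) (_hc : 0 ≤ c) :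
    597 / 1000 ≤ a ∧ a ≤ 3 / 5 := by
  have h1 : |a - b| < 43 / 100000 := by
    by_contra hcon
    push Not at hcon
    have hsq := sq_abs (a - b)
    nlinarith [abs_nonneg (a - b)]
  have h2 : |a - c| < 43 / 100000 := by
    by_contra hcon
    push Not at hcon
    have hsq := sq_abs (a - c)
    nlinarith [abs_nonneg (a - c)]
  rw [abs_lt] at h1 h2
  constructor
  · by_contra hcon
    push Not at hcon
    have hb' : b < 59743 / 100000 := by linarith
    have hc' : c < 59743 / 100000 := by linarith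
    nlinarith
  · by_contra hcon
    push Not at hcon
    have hb' : 59957 / 100000 < b := by linarith
    have hc' : 59957 / 100000 < c := by linarith
    nlinarith

theorem sides_bound {a b c X : ℝ} (ha : 0 ≤ a) (hb : 0 ≤ b) (hc : 0 ≤ c)
    (hsq : a ^ 2 + b ^ 2 + c ^ 2 = 3 * X) (hW : X ≤ (a + b + c) / 2 * phi0)
    (hlow : 9 / (8 * Real.pi) - 2 / 10 ^ 8 < X) (hup : X ≤ 9 / (8 * Real.pi)) :
    (597 / 1000 ≤ a ∧ a ≤ 3 / 5) ∧ (597 / 1000 ≤ b ∧ b ≤ 3 / 5)
      ∧ (597 / 1000 ≤ c ∧ c ≤ 3 / 5) := by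
  have hpi1 : (3.1415 : ℝ) < Real.pi := Real.pi_gt_d4
  have hpi2 : Real.pi < (3.1416 : ℝ) := Real.pi_lt_d4
  have hpipos : (0 : ℝ) < Real.pi := Real.pi_pos
  have h8pi : (0 : ℝ) < 8 * Real.pi := by positivity
  -- numerics on 9 / (8 pi)
  have hq_lo : (358097 : ℝ) / 1000000 < 9 / (8 * Real.pi) := by
    rw [lt_div_iff₀ h8pi]
    nlinarith
  have hq_hi : 9 / (8 * Real.pi) < (35811 : ℝ) / 100000 := by
    rw [div_lt_iff₀ h8pi]
    nlinarith
  have hXpos : 0 < X := by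
    have : (0 : ℝ) < 9 / (8 * Real.pi) - 2 / 10 ^ 8 := by
      have : (2 : ℝ) / 10 ^ 8 < 358097 / 1000000 := by norm_num
      linarith
    linarith
  have hL : 0 ≤ a + b + c := by positivity
  -- 8 pi X^2 <= L^2
  have hX2 : 8 * Real.pi * X ^ 2 ≤ (a + b + c) ^ 2 := by
    have h1 : X ^ 2 ≤ ((a + b + c) / 2 * phi0) ^ 2 := by
      apply pow_le_pow_left₀ hXpos.le hW
    have h2 : ((a + b + c) / 2 * phi0) ^ 2 = (a + b + c) ^ 2 / (8 * Real.pi) := by
      rw [mul_pow, phi0_sq]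
      field_simp
      ring
    rw [h2, le_div_iff₀ h8pi] at h1
    linarith
  -- the defect
  have hkey : 8 * Real.pi * X * (9 / (8 * Real.pi) - X) < 18 / 10 ^ 8 := by
    have hgap : 9 / (8 * Real.pi) - X < 2 / 10 ^ 8 := by linarith
    have hgap0 : 0 ≤ 9 / (8 * Real.pi) - X := by linarith
    have h8X : 8 * Real.pi * X ≤ 9 := by
      have := mul_le_mul_of_nonneg_left hup h8pi.le
      rw [mul_div_cancel₀ _ h8pi.ne'] at this
      linarith
    have h8Xpos : 0 < 8 * Real.pi * X := by positivity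
    calc 8 * Real.pi * X * (9 / (8 * Real.pi) - X)
        < 8 * Real.pi * X * (2 / 10 ^ 8) := by
          apply mul_lt_mul_of_pos_left hgap h8Xpos
      _ ≤ 9 * (2 / 10 ^ 8) := by
          apply mul_le_mul_of_nonneg_right h8X (by norm_num)
      _ = 18 / 10 ^ 8 := by norm_num
  have hexp : 8 * Real.pi * X * (9 / (8 * Real.pi) - X) = 9 * X - 8 * Real.pi * X ^ 2 := by
    field_simp
  have hD : (a - b) ^ 2 + (b - c) ^ 2 + (a - c) ^ 2 < 18 / 10 ^ 8 := by
    have hid : (a - b) ^ 2 + (b - c) ^ 2 + (a - c) ^ 2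
        = 3 * (a ^ 2 + b ^ 2 + c ^ 2) - (a + b + c) ^ 2 := by ring
    rw [hid, hsq]
    linarith
  have hab : (a - b) ^ 2 < 18 / 10 ^ 8 := by nlinarith [sq_nonneg (b - c), sq_nonneg (a - c)]
  have hbc : (b - c) ^ 2 < 18 / 10 ^ 8 := by nlinarith [sq_nonneg (a - b), sq_nonneg (a - c)]
  have hac : (a - c) ^ 2 < 18 / 10 ^ 8 := by nlinarith [sq_nonneg (a - b), sq_nonneg (b - c)]
  have hlo : (107427 : ℝ) / 100000 < a ^ 2 + b ^ 2 + c ^ 2 := by
    rw [hsq]
    have : (2 : ℝ) / 10 ^ 8 < 1 / 1000000 := by norm_num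
    linarith
  have hhi : a ^ 2 + b ^ 2 + c ^ 2 ≤ (107433 : ℝ) / 100000 := by
    rw [hsq]
    linarith
  have hba : (b - a) ^ 2 < 18 / 10 ^ 8 := by rw [← neg_sub, neg_sq]; exact hab
  have hca : (c - a) ^ 2 < 18 / 10 ^ 8 := by rw [← neg_sub, neg_sq]; exact hac
  have hcb : (c - b) ^ 2 < 18 / 10 ^ 8 := by rw [← neg_sub, neg_sq]; exact hbc
  refine ⟨sides_one hab hac hlo hhi ha hb hc, ?_, ?_⟩
  · exact sides_one hba hbc (by linarith) (by linarith) hb ha hc
  · exact sides_one hca hcb (by linarith) (by linarith) hc ha hb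

end Vale.Agent.Lib.P226
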