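import Vale.Agent.Lib.P226.Dust.Defs

/-!
# P226 / Dust: cells of tiny Gaussian measure have tiny first moments
-/

open MeasureTheory ProbabilityTheory
open scoped RealInnerProductSpace

namespace Vale.Agent.Lib.P226

variable {E : Type*} [NormedAddCommGroup E] [InnerProductSpace ℝ E] [FiniteDimensional ℝ E]
  [MeasurableSpace E] [BorelSpace E]

/-- `exp (-126) ≤ 1 / (4 * 10 ^ 8)`. -/
lemma tiny_exp_bound : Real.exp (-126) ≤ 1 / (4 * 10 ^ 8) := by
  have h18 : (19 : ℝ) ≤ Real.exp 18 := by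
    have := Real.add_one_le_exp (18 : ℝ)
    linarith
  have h126 : (4 * 10 ^ 8 : ℝ) ≤ Real.exp 126 := by
    have e : Real.exp 126 = Real.exp 18 ^ 7 := by
      rw [← Real.exp_nat_mul]
      norm_num
    rw [e]
    calc (4 * 10 ^ 8 : ℝ) ≤ 19 ^ 7 := by norm_num
      _ ≤ Real.exp 18 ^ 7 := pow_le_pow_left₀ (by norm_num) h18 7
  rw [Real.exp_neg, one_div]
  exact inv_anti₀ (by positivity) h126

theorem sq_norm_zmom_le_of_tiny (A : Set E)
    (h : (stdGaussian E).real A ≤ 1 / 10 ^ 11) :
    ‖zmom A‖ ^ 2 ≤ 1 / 10 ^ 8 * (stdGaussian E).real A := by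
  unfold zmom
  set γ := stdGaussian E
  set p := γ.real A with hp
  have hp0 : 0 ≤ p := measureReal_nonneg
  rcases hp0.eq_or_lt with h0 | hppos
  · rw [setIntegral_eq_zero_of_measureReal A h0.symm, ← h0]
    simp
  · set r := Real.sqrt (p / (4 * 10 ^ 8)) with hr
    have hrpos : 0 < r := Real.sqrt_pos.2 (by positivity)
    have hr2 : r ^ 2 = p / (4 * 10 ^ 8) := Real.sq_sqrt (by positivity)
    have htpos : 0 < r / p := by positivity
    have h1 := norm_le_mul_add_hfun A htpos.le
    rw [← hp] at h1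
    have h2 := hfun_chernoff htpos
    have ht2 : 250 ≤ (r / p) ^ 2 := by
      rw [div_pow, hr2, le_div_iff₀ (by positivity), le_div_iff₀ (by positivity)]
      have hpp := mul_le_mul_of_nonneg_left h hppos.le
      nlinarith
    have hexp : Real.exp (-(1 + (r / p) ^ 2 / 2)) ≤ 1 / (4 * 10 ^ 8) :=
      le_trans (Real.exp_le_exp.mpr (by linarith)) tiny_exp_bound
    have h3 : hfun (r / p) ≤ r := by
      have h7 : r / p * hfun (r / p) ≤ r / p * r := by
        have e : r / p * r = 1 / (4 * 10 ^ 8) := by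
          rw [div_mul_eq_mul_div, ← sq, hr2]
          field_simp
        rw [e]
        exact h2.trans hexp
      exact le_of_mul_le_mul_left h7 htpos
    have h4 : r / p * p = r := by field_simp
    have h5 : ‖∫ x in A, x ∂γ‖ ≤ 2 * r := by
      rw [h4] at h1
      linarith
    have h6 : 0 ≤ ‖∫ x in A, x ∂γ‖ := norm_nonneg _
    nlinarith

end Vale.Agent.Lib.P226
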