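import Vale.Agent.Lib.P226.Dust.Cover
import Vale.Agent.Lib.P226.Dust.Tiny
import Vale.Agent.Lib.P226.Dust.Frame
import Vale.Agent.Lib.P226.Dust.Sides
import Vale.Agent.Lib.P226.Dust.Cells

/-!
# P226 / Dust: three arbitrary cells plus any number of cells of tiny Gaussian measure
-/

open MeasureTheory ProbabilityTheory
open scoped RealInnerProductSpace

namespace Vale.Agent.Lib.P226

variable {E : Type*} [NormedAddCommGroup E] [InnerProductSpace ℝ E] [FiniteDimensional ℝ E]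
  [MeasurableSpace E] [BorelSpace E]

theorem core_zmom_union (S T : Set E) (hT : MeasurableSet T) (hd : Disjoint S T) :
    zmom (S ∪ T) = zmom S + zmom T := by
  unfold zmom
  exact setIntegral_union hd hT (IsGaussian.integrable_id (μ := stdGaussian E)).integrableOn
    (IsGaussian.integrable_id (μ := stdGaussian E)).integrableOn

theorem core_zmom_compl (S : Set E) (hS : MeasurableSet S) : zmom Sᶜ = -zmom S := by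
  have h := core_zmom_union S Sᶜ hS.compl disjoint_compl_right
  rw [Set.union_compl_self] at h
  have h0 : zmom (Set.univ : Set E) = 0 := by
    unfold zmom
    rw [Measure.restrict_univ]
    exact integral_id_stdGaussian
  rw [h0] at h
  exact eq_neg_of_add_eq_zero_right h.symm

omit [FiniteDimensional ℝ E] [MeasurableSpace E] [BorelSpace E] in
theorem core_tmax_shift (a b c d x : E) :
    tmax a b c x = ⟪d, x⟫ + tmax (a - d) (b - d) (c - d) x := by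
  unfold tmax
  rw [inner_sub_left, inner_sub_left, inner_sub_left, ← max_add_add_left, ← max_add_add_left]
  congr 1
  · ring
  · congr 1 <;> ring

omit [FiniteDimensional ℝ E] [MeasurableSpace E] [BorelSpace E] in
theorem core_tmax_nonneg (a b c : E) (h : a + b + c = 0) (x : E) : 0 ≤ tmax a b c x := by
  unfold tmax
  have h0 : ⟪a, x⟫ + ⟪b, x⟫ + ⟪c, x⟫ = 0 := by
    rw [← inner_add_left, ← inner_add_left, h, inner_zero_left]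
  by_contra hneg
  push Not at hneg
  have h1 : ⟪a, x⟫ < 0 := lt_of_le_of_lt (le_max_left _ _) hneg
  have h2 : ⟪b, x⟫ < 0 :=
    lt_of_le_of_lt (le_trans (le_max_left _ _) (le_max_right _ _)) hneg
  have h3 : ⟪c, x⟫ < 0 :=
    lt_of_le_of_lt (le_trans (le_max_right _ _) (le_max_right _ _)) hneg
  linarith

omit [FiniteDimensional ℝ E] [MeasurableSpace E] [BorelSpace E] in
theorem core_sum_sq_centered (z₁ z₂ z₃ c : E) (hc : c = (1 / 3 : ℝ) • (z₁ + z₂ + z₃)) :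
    ‖z₁ - c‖ ^ 2 + ‖z₂ - c‖ ^ 2 + ‖z₃ - c‖ ^ 2
      = ‖z₁‖ ^ 2 + ‖z₂‖ ^ 2 + ‖z₃‖ ^ 2 - ‖z₁ + z₂ + z₃‖ ^ 2 / 3 := by
  have e1 : ∀ z : E, ‖z - c‖ ^ 2 = ‖z‖ ^ 2 - 2 * ⟪z, c⟫ + ‖c‖ ^ 2 := fun z => norm_sub_sq_real z c
  rw [e1, e1, e1]
  have e2 : ⟪z₁, c⟫ + ⟪z₂, c⟫ + ⟪z₃, c⟫ = ⟪z₁ + z₂ + z₃, c⟫ := by
    rw [inner_add_left, inner_add_left]
  have e3 : ⟪z₁ + z₂ + z₃, c⟫ = ‖z₁ + z₂ + z₃‖ ^ 2 / 3 := by
    rw [hc, inner_smul_right, real_inner_self_eq_norm_sq]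
    ring
  have e4 : ‖c‖ ^ 2 = ‖z₁ + z₂ + z₃‖ ^ 2 / 9 := by
    rw [hc, norm_smul, mul_pow, Real.norm_eq_abs]
    rw [sq_abs]
    ring
  rw [e4]
  linarith

omit [FiniteDimensional ℝ E] [MeasurableSpace E] [BorelSpace E] in
theorem core_sides_sq (w₁ w₂ w₃ : E) (h : w₁ + w₂ + w₃ = 0) :
    ‖w₁ - w₂‖ ^ 2 + ‖w₂ - w₃‖ ^ 2 + ‖w₁ - w₃‖ ^ 2
      = 3 * (‖w₁‖ ^ 2 + ‖w₂‖ ^ 2 + ‖w₃‖ ^ 2) := by
  have e0 : ‖w₁ + w₂ + w₃‖ ^ 2 = 0 := by rw [h]; simp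
  rw [norm_add_sq_real, norm_add_sq_real, inner_add_left] at e0
  rw [norm_sub_sq_real, norm_sub_sq_real, norm_sub_sq_real]
  linarith

omit [InnerProductSpace ℝ E] [FiniteDimensional ℝ E] [MeasurableSpace E] [BorelSpace E] in
theorem core_sides_eq (z₁ z₂ z₃ c : E) :
    ‖(z₁ - c) - (z₂ - c)‖ + ‖(z₂ - c) - (z₃ - c)‖ + ‖(z₁ - c) - (z₃ - c)‖
      = ‖z₁ - z₂‖ + ‖z₂ - z₃‖ + ‖z₁ - z₃‖ := by
  rw [sub_sub_sub_cancel_right, sub_sub_sub_cancel_right, sub_sub_sub_cancel_right]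

/-- Real-number core of the final step. -/
theorem core_final_arith {F X L : ℝ} (hF : F ≤ L / 2 * phi0) (hX : X ≤ F) (hX0 : 0 ≤ X)
    (hL : L ^ 2 ≤ 9 * X) (hL0 : 0 ≤ L) : F ≤ 9 / (8 * Real.pi) := by
  have hp := phi0_pos
  have hp2 := phi0_sq
  have hpi := Real.pi_pos
  have hF0 : 0 ≤ F := le_trans hX0 hX
  have h1 : F ^ 2 ≤ (L / 2 * phi0) ^ 2 := by
    have h0 : 0 ≤ L / 2 * phi0 := by positivity
    nlinarith
  have h2 : (L / 2 * phi0) ^ 2 = L ^ 2 / 4 * (1 / (2 * Real.pi)) := by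
    rw [mul_pow, hp2]
    ring
  have h3 : L ^ 2 / 4 * (1 / (2 * Real.pi)) ≤ 9 * F / 4 * (1 / (2 * Real.pi)) := by
    have hinv : 0 ≤ 1 / (2 * Real.pi) := by positivity
    have : L ^ 2 / 4 ≤ 9 * F / 4 := by linarith
    exact mul_le_mul_of_nonneg_right this hinv
  have h4 : F ^ 2 ≤ 9 / (8 * Real.pi) * F := by
    have e : 9 * F / 4 * (1 / (2 * Real.pi)) = 9 / (8 * Real.pi) * F := by
      field_simp
      ring
    linarith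
  rcases hF0.eq_or_lt with h0 | hpos
  · rw [← h0]
    positivity
  · have : F * F ≤ 9 / (8 * Real.pi) * F := by nlinarith
    exact le_of_mul_le_mul_right this hpos

theorem dust_core {κ : Type*} [Fintype κ] (A₁ A₂ A₃ : Set E) (B : κ → Set E)
    (h₁ : MeasurableSet A₁) (h₂ : MeasurableSet A₂) (h₃ : MeasurableSet A₃)
    (hB : ∀ j, MeasurableSet (B j))
    (d12 : Disjoint A₁ A₂) (d13 : Disjoint A₁ A₃) (d23 : Disjoint A₂ A₃)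
    (d1B : ∀ j, Disjoint A₁ (B j)) (d2B : ∀ j, Disjoint A₂ (B j)) (d3B : ∀ j, Disjoint A₃ (B j))
    (dBB : Pairwise (fun i j => Disjoint (B i) (B j)))
    (hsmall : ∀ j, (stdGaussian E).real (B j) ≤ 1 / 10 ^ 11) :
    ‖zmom A₁‖ ^ 2 + ‖zmom A₂‖ ^ 2 + ‖zmom A₃‖ ^ 2 + ∑ j, ‖zmom (B j)‖ ^ 2
      ≤ 9 / (8 * Real.pi) := by
  obtain ⟨z₁, hz₁⟩ : ∃ z, z = zmom A₁ := ⟨_, rfl⟩
  obtain ⟨z₂, hz₂⟩ : ∃ z, z = zmom A₂ := ⟨_, rfl⟩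
  obtain ⟨z₃, hz₃⟩ : ∃ z, z = zmom A₃ := ⟨_, rfl⟩
  obtain ⟨Q, hQ⟩ : ∃ Q, Q = ∑ j, ‖zmom (B j)‖ ^ 2 := ⟨_, rfl⟩
  obtain ⟨R, hRdef⟩ : ∃ R, R = (A₁ ∪ A₂ ∪ A₃)ᶜ := ⟨_, rfl⟩
  obtain ⟨c, hc⟩ : ∃ c, c = (1 / 3 : ℝ) • (z₁ + z₂ + z₃) := ⟨_, rfl⟩
  obtain ⟨w₁, hw₁⟩ : ∃ w, w = z₁ - c := ⟨_, rfl⟩
  obtain ⟨w₂, hw₂⟩ : ∃ w, w = z₂ - c := ⟨_, rfl⟩
  obtain ⟨w₃, hw₃⟩ : ∃ w, w = z₃ - c := ⟨_, rfl⟩
  rw [← hz₁, ← hz₂, ← hz₃, ← hQ]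
  by_contra hcon
  push Not at hcon
  have hpi := Real.pi_pos
  -- the tiny cells
  have hu : ∀ j, ‖zmom (B j)‖ ^ 2 ≤ 1 / 10 ^ 8 * (stdGaussian E).real (B j) :=
    fun j => sq_norm_zmom_le_of_tiny (B j) (hsmall j)
  have hQ8 : Q ≤ 1 / 10 ^ 8 := by
    rw [hQ]
    calc ∑ j, ‖zmom (B j)‖ ^ 2 ≤ ∑ j, 1 / 10 ^ 8 * (stdGaussian E).real (B j) :=
          Finset.sum_le_sum fun j _ => hu j
      _ = 1 / 10 ^ 8 * ∑ j, (stdGaussian E).real (B j) := by rw [Finset.mul_sum]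
      _ ≤ 1 / 10 ^ 8 * 1 :=
          mul_le_mul_of_nonneg_left (sum_measureReal_le_one B hB dBB) (by positivity)
      _ = 1 / 10 ^ 8 := by ring
  have hu5 : ∀ j, ‖zmom (B j)‖ ≤ 1 / 10 ^ 5 := by
    intro j
    have hj := hu j
    have hs := hsmall j
    have hm : (0 : ℝ) ≤ (stdGaussian E).real (B j) := measureReal_nonneg
    have h5 : ‖zmom (B j)‖ ^ 2 ≤ (1 / 10 ^ 5) ^ 2 := by
      have : (1 / 10 ^ 8 : ℝ) * (stdGaussian E).real (B j) ≤ 1 / 10 ^ 8 * (1 / 10 ^ 11) :=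
        mul_le_mul_of_nonneg_left hs (by positivity)
      have e : (1 / 10 ^ 8 : ℝ) * (1 / 10 ^ 11) ≤ (1 / 10 ^ 5) ^ 2 := by norm_num
      linarith
    exact le_of_sq_le_sq h5 (by positivity)
  -- merging bound: the sum of the three first moments is tiny
  have hmerge := three_merge_bound A₁ A₂ A₃ h₁ h₂ h₃ d12 d13 d23
  rw [← hz₁, ← hz₂, ← hz₃] at hmerge
  have hβ : ‖z₁ + z₂ + z₃‖ ^ 2 / 3 < 1 / 10 ^ 8 := by linarith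
  -- the remainder
  have hU : MeasurableSet (A₁ ∪ A₂ ∪ A₃) := (h₁.union h₂).union h₃
  have hR : MeasurableSet R := by rw [hRdef]; exact hU.compl
  have hzR : zmom R = -(z₁ + z₂ + z₃) := by
    rw [hRdef, core_zmom_compl _ hU, core_zmom_union _ _ h₃
      (Set.disjoint_union_left.2 ⟨d13, d23⟩), core_zmom_union _ _ h₂ d12, ← hz₁, ← hz₂, ← hz₃]
  have hzRnorm : ‖zmom R‖ ^ 2 = ‖z₁ + z₂ + z₃‖ ^ 2 := by rw [hzR, norm_neg]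
  -- centred triangle
  have hwsum : w₁ + w₂ + w₃ = 0 := by
    rw [hw₁, hw₂, hw₃, hc]
    module
  have hX : ‖w₁‖ ^ 2 + ‖w₂‖ ^ 2 + ‖w₃‖ ^ 2
      = ‖z₁‖ ^ 2 + ‖z₂‖ ^ 2 + ‖z₃‖ ^ 2 - ‖z₁ + z₂ + z₃‖ ^ 2 / 3 := by
    rw [hw₁, hw₂, hw₃]
    exact core_sum_sq_centered z₁ z₂ z₃ c hc
  have hsides := core_sides_sq w₁ w₂ w₃ hwsum
  have hLeq : ‖w₁ - w₂‖ + ‖w₂ - w₃‖ + ‖w₁ - w₃‖ = ‖z₁ - z₂‖ + ‖z₂ - z₃‖ + ‖z₁ - z₃‖ := by
    rw [hw₁, hw₂, hw₃]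
    exact core_sides_eq z₁ z₂ z₃ c
  obtain ⟨X, hXdef⟩ : ∃ X, X = ‖w₁‖ ^ 2 + ‖w₂‖ ^ 2 + ‖w₃‖ ^ 2 := ⟨_, rfl⟩
  obtain ⟨L, hLdef⟩ : ∃ L, L = ‖w₁ - w₂‖ + ‖w₂ - w₃‖ + ‖w₁ - w₃‖ := ⟨_, rfl⟩
  have hX0 : 0 ≤ X := by rw [hXdef]; positivity
  have hL0 : 0 ≤ L := by rw [hLdef]; positivity
  have hL9 : L ^ 2 ≤ 9 * X := by
    have hcs : (‖w₁ - w₂‖ + ‖w₂ - w₃‖ + ‖w₁ - w₃‖) ^ 2
        ≤ 3 * (‖w₁ - w₂‖ ^ 2 + ‖w₂ - w₃‖ ^ 2 + ‖w₁ - w₃‖ ^ 2) := by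
      nlinarith [sq_nonneg (‖w₁ - w₂‖ - ‖w₂ - w₃‖), sq_nonneg (‖w₂ - w₃‖ - ‖w₁ - w₃‖),
        sq_nonneg (‖w₁ - w₂‖ - ‖w₁ - w₃‖)]
    rw [hLdef, hXdef]
    linarith
  -- master inequality
  have hintM : Integrable (tmax z₁ z₂ z₃) (stdGaussian E) := integrable_tmax z₁ z₂ z₃
  have hinth : Integrable (tmax w₁ w₂ w₃) (stdGaussian E) := integrable_tmax w₁ w₂ w₃
  have hmaster := three_master A₁ A₂ A₃ h₁ h₂ h₃ d12 d13 d23 (by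
    rw [← hz₁, ← hz₂, ← hz₃]; exact hintM)
  rw [← hz₁, ← hz₂, ← hz₃, ← hRdef, integral_tmax, ← hLeq, ← hLdef] at hmaster
  have hshift : tmax z₁ z₂ z₃ = fun x => ⟪c, x⟫ + tmax w₁ w₂ w₃ x := by
    funext x
    rw [hw₁, hw₂, hw₃]
    exact core_tmax_shift z₁ z₂ z₃ c x
  have hRint : ∫ x in R, tmax z₁ z₂ z₃ x ∂(stdGaussian E)
      = -(‖z₁ + z₂ + z₃‖ ^ 2 / 3) + ∫ x in R, tmax w₁ w₂ w₃ x ∂(stdGaussian E) := by
    rw [hshift, integral_add (integrable_inner c).integrableOn hinth.integrableOn,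
      ← inner_zmom, hzR, hc, inner_neg_right, inner_smul_left, real_inner_self_eq_norm_sq]
    simp only [RCLike.conj_to_real]
    ring
  rw [hRint] at hmaster
  -- hmaster : S₃ + (-β + ∫_R h) ≤ L / 2 * phi0
  have hh0 : ∀ x, 0 ≤ tmax w₁ w₂ w₃ x := core_tmax_nonneg w₁ w₂ w₃ hwsum
  have hD0 : 0 ≤ ∫ x in R, tmax w₁ w₂ w₃ x ∂(stdGaussian E) :=
    setIntegral_nonneg hR fun x _ => hh0 x
  have hXW : X ≤ L / 2 * phi0 := by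
    rw [hXdef, hX]
    linarith
  have hXup : X ≤ 9 / (8 * Real.pi) := core_final_arith hXW le_rfl hX0 hL9 hL0
  have hXlow : 9 / (8 * Real.pi) - 2 / 10 ^ 8 < X := by
    rw [hXdef, hX]
    linarith
  have hsq3 : ‖w₁ - w₂‖ ^ 2 + ‖w₂ - w₃‖ ^ 2 + ‖w₁ - w₃‖ ^ 2 = 3 * X := by
    rw [hXdef]; exact hsides
  have hXW' : X ≤ (‖w₁ - w₂‖ + ‖w₂ - w₃‖ + ‖w₁ - w₃‖) / 2 * phi0 := by
    rw [← hLdef]; exact hXW
  obtain ⟨⟨ha, ha'⟩, ⟨hb, hb'⟩, ⟨hc3, hc3'⟩⟩ :=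
    sides_bound (norm_nonneg _) (norm_nonneg _) (norm_nonneg _) hsq3 hXW' hXlow hXup
  -- the frame
  obtain ⟨e₁, e₂, he1, he2, he12, hdisc⟩ :=
    exists_frame w₁ w₂ w₃ hwsum ha ha' hb hb' hc3 hc3'
  have hintN : Integrable (nmax e₁ e₂) (stdGaussian E) := integrable_nmax e₁ e₂
  -- each tiny cell
  have hcell : ∀ j, ‖zmom (B j)‖ ^ 2 + 1 / 40 * ∫ x in B j, nmax e₁ e₂ x ∂(stdGaussian E)
      ≤ ∫ x in B j, tmax w₁ w₂ w₃ x ∂(stdGaussian E) :=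
    fun j => tiny_cell_bound (B j) (hB j) e₁ e₂ he1 he2 he12 (tmax w₁ w₂ w₃) hinth hdisc (hu5 j)
  -- the remainder
  have hzR4 : ‖zmom R‖ ≤ 2 / 10 ^ 4 := by
    have h4 : ‖zmom R‖ ^ 2 ≤ (2 / 10 ^ 4) ^ 2 := by
      rw [hzRnorm]
      have e : (3 : ℝ) * (1 / 10 ^ 8) ≤ (2 / 10 ^ 4) ^ 2 := by norm_num
      linarith
    have h0 := norm_nonneg (zmom R)
    exact le_of_sq_le_sq h4 (by positivity)
  have hrest := rest_bound R hR e₁ e₂ he1 he2 he12 hzR4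
  rw [hzRnorm] at hrest
  -- what the triangle collects on the remainder
  have hg0 : ∀ x, 0 ≤ tmax w₁ w₂ w₃ x - 1 / 40 * nmax e₁ e₂ x := by
    intro x
    have hA := disc_nmax_le e₁ e₂ (tmax w₁ w₂ w₃) hdisc x
    have hN := nmax_nonneg e₁ e₂ x
    linarith
  have hgint : Integrable (fun x => tmax w₁ w₂ w₃ x - 1 / 40 * nmax e₁ e₂ x) (stdGaussian E) :=
    hinth.sub (hintN.const_mul _)
  have hsub : (⋃ j, B j) ⊆ R := by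
    rw [hRdef]
    intro x hx
    obtain ⟨j, hj⟩ := Set.mem_iUnion.1 hx
    intro hxA
    rcases hxA with (hx1 | hx2) | hx3
    · exact Set.disjoint_left.1 (d1B j) hx1 hj
    · exact Set.disjoint_left.1 (d2B j) hx2 hj
    · exact Set.disjoint_left.1 (d3B j) hx3 hj
  have hmono : ∫ x in ⋃ j, B j, (tmax w₁ w₂ w₃ x - 1 / 40 * nmax e₁ e₂ x) ∂(stdGaussian E)
      ≤ ∫ x in R, (tmax w₁ w₂ w₃ x - 1 / 40 * nmax e₁ e₂ x) ∂(stdGaussian E) :=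
    setIntegral_mono_set hgint.integrableOn (Filter.Eventually.of_forall hg0)
      (Filter.Eventually.of_forall fun x hx => hsub hx)
  have hunion : ∫ x in ⋃ j, B j, (tmax w₁ w₂ w₃ x - 1 / 40 * nmax e₁ e₂ x) ∂(stdGaussian E)
      = ∑ j, ∫ x in B j, (tmax w₁ w₂ w₃ x - 1 / 40 * nmax e₁ e₂ x) ∂(stdGaussian E) :=
    integral_iUnion_fintype hB dBB fun j => hgint.integrableOn
  have hsplit : ∀ S : Set E, ∫ x in S, (tmax w₁ w₂ w₃ x - 1 / 40 * nmax e₁ e₂ x) ∂(stdGaussian E)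
      = ∫ x in S, tmax w₁ w₂ w₃ x ∂(stdGaussian E)
        - 1 / 40 * ∫ x in S, nmax e₁ e₂ x ∂(stdGaussian E) := by
    intro S
    rw [integral_sub hinth.integrableOn (hintN.const_mul _).integrableOn, integral_const_mul]
  have hQle : Q ≤ ∑ j, ∫ x in B j, (tmax w₁ w₂ w₃ x - 1 / 40 * nmax e₁ e₂ x) ∂(stdGaussian E) := by
    rw [hQ]
    refine Finset.sum_le_sum fun j _ => ?_
    rw [hsplit]
    have := hcell j
    linarith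
  have hRg := hsplit R
  -- conclusion
  have hF : ‖z₁‖ ^ 2 + ‖z₂‖ ^ 2 + ‖z₃‖ ^ 2 + Q ≤ L / 2 * phi0 := by linarith
  have hXF : X ≤ ‖z₁‖ ^ 2 + ‖z₂‖ ^ 2 + ‖z₃‖ ^ 2 + Q := by
    have hQ0 : 0 ≤ Q := by rw [hQ]; positivity
    have hb0 : 0 ≤ ‖z₁ + z₂ + z₃‖ ^ 2 / 3 := by positivity
    rw [hXdef, hX]
    linarith
  have hfin := core_final_arith hF hXF hX0 hL9 hL0
  linarith

end Vale.Agent.Lib.P226
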