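import Vale.Agent.Lib.P226.Dust.Defs

/-!
# P226 / Dust: three disjoint cells against the maximum of their three linear forms
-/

open MeasureTheory ProbabilityTheory
open scoped RealInnerProductSpace

namespace Vale.Agent.Lib.P226

variable {E : Type*} [NormedAddCommGroup E] [InnerProductSpace ℝ E] [FiniteDimensional ℝ E]
  [MeasurableSpace E] [BorelSpace E]

theorem three_master (A₁ A₂ A₃ : Set E) (h₁ : MeasurableSet A₁) (h₂ : MeasurableSet A₂)
    (h₃ : MeasurableSet A₃) (d12 : Disjoint A₁ A₂) (d13 : Disjoint A₁ A₃) (d23 : Disjoint A₂ A₃)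
    (hint : Integrable (tmax (zmom A₁) (zmom A₂) (zmom A₃)) (stdGaussian E)) :
    ‖zmom A₁‖ ^ 2 + ‖zmom A₂‖ ^ 2 + ‖zmom A₃‖ ^ 2
        + ∫ x in (A₁ ∪ A₂ ∪ A₃)ᶜ, tmax (zmom A₁) (zmom A₂) (zmom A₃) x ∂(stdGaussian E)
      ≤ ∫ x, tmax (zmom A₁) (zmom A₂) (zmom A₃) x ∂(stdGaussian E) := by
  obtain ⟨M, hM⟩ : ∃ M : E → ℝ, M = tmax (zmom A₁) (zmom A₂) (zmom A₃) := ⟨_, rfl⟩
  rw [← hM] at hint ⊢
  have hle1 : ∀ x, ⟪zmom A₁, x⟫ ≤ M x := fun x => by
    rw [hM]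
    exact le_max_left _ _
  have hle2 : ∀ x, ⟪zmom A₂, x⟫ ≤ M x := fun x => by
    rw [hM]
    exact le_trans (le_max_left _ _) (le_max_right _ _)
  have hle3 : ∀ x, ⟪zmom A₃, x⟫ ≤ M x := fun x => by
    rw [hM]
    exact le_trans (le_max_right _ _) (le_max_right _ _)
  have key : ∀ (z : E) (A : Set E), (∀ x, ⟪z, x⟫ ≤ M x) → z = zmom A →
      ‖z‖ ^ 2 ≤ ∫ x in A, M x ∂(stdGaussian E) := by
    intro z A hle hz
    have e1 : ‖z‖ ^ 2 = ∫ x in A, ⟪z, x⟫ ∂(stdGaussian E) := by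
      rw [← inner_zmom, ← hz, real_inner_self_eq_norm_sq]
    rw [e1]
    exact setIntegral_mono (integrable_inner z).integrableOn hint.integrableOn hle
  have k1 := key (zmom A₁) A₁ hle1 rfl
  have k2 := key (zmom A₂) A₂ hle2 rfl
  have k3 := key (zmom A₃) A₃ hle3 rfl
  have hd : Disjoint (A₁ ∪ A₂) A₃ := Set.disjoint_union_left.2 ⟨d13, d23⟩
  have hu : ∫ x in A₁ ∪ A₂ ∪ A₃, M x ∂(stdGaussian E)
      = (∫ x in A₁, M x ∂(stdGaussian E)) + (∫ x in A₂, M x ∂(stdGaussian E))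
        + ∫ x in A₃, M x ∂(stdGaussian E) := by
    rw [setIntegral_union hd h₃ hint.integrableOn hint.integrableOn,
      setIntegral_union d12 h₂ hint.integrableOn hint.integrableOn]
  have hc := integral_add_compl ((h₁.union h₂).union h₃) hint
  linarith

end Vale.Agent.Lib.P226
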