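import Vale.Agent.Lib.P226.Dust.ThreePoint
import Vale.Agent.Lib.P226.Dust.Master

/-!
# P226 / Dust: three cells covering the space, and three cells with a remainder
-/

open MeasureTheory ProbabilityTheory
open scoped RealInnerProductSpace

namespace Vale.Agent.Lib.P226

variable {E : Type*} [NormedAddCommGroup E] [InnerProductSpace ℝ E] [FiniteDimensional ℝ E]
  [MeasurableSpace E] [BorelSpace E]

/-- The first moment is additive on disjoint sets. -/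
theorem cover_zmom_union (S T : Set E) (hT : MeasurableSet T) (hd : Disjoint S T) :
    zmom (S ∪ T) = zmom S + zmom T := by
  unfold zmom
  exact setIntegral_union hd hT
    (IsGaussian.integrable_id (μ := stdGaussian E)).integrableOn
    (IsGaussian.integrable_id (μ := stdGaussian E)).integrableOn

/-- The first moment of the whole space vanishes. -/
theorem cover_zmom_univ : zmom (Set.univ : Set E) = 0 := by
  unfold zmom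
  rw [Measure.restrict_univ]
  exact integral_id_stdGaussian

/-- The first moment of a disjoint union of three sets. -/
theorem cover_zmom_union3 (S T V : Set E) (hT : MeasurableSet T) (hV : MeasurableSet V)
    (d12 : Disjoint S T) (d13 : Disjoint S V) (d23 : Disjoint T V) :
    zmom (S ∪ T ∪ V) = zmom S + zmom T + zmom V := by
  rw [cover_zmom_union (S ∪ T) V hV (Set.disjoint_union_left.mpr ⟨d13, d23⟩),
    cover_zmom_union S T hT d12]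

/-- The propeller bound for three pairwise disjoint measurable cells covering the space. -/
theorem three_cover_bound (C₁ C₂ C₃ : Set E) (h₁ : MeasurableSet C₁) (h₂ : MeasurableSet C₂)
    (h₃ : MeasurableSet C₃) (d12 : Disjoint C₁ C₂) (d13 : Disjoint C₁ C₃) (d23 : Disjoint C₂ C₃)
    (hcov : C₁ ∪ C₂ ∪ C₃ = Set.univ) :
    ‖zmom C₁‖ ^ 2 + ‖zmom C₂‖ ^ 2 + ‖zmom C₃‖ ^ 2 ≤ 9 / (8 * Real.pi) := by
  have hsum : zmom C₁ + zmom C₂ + zmom C₃ = 0 := by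
    rw [← cover_zmom_union3 C₁ C₂ C₃ h₂ h₃ d12 d13 d23, hcov, cover_zmom_univ]
  have master := three_master C₁ C₂ C₃ h₁ h₂ h₃ d12 d13 d23 (integrable_tmax _ _ _)
  rw [hcov, Set.compl_univ, Measure.restrict_empty, integral_zero_measure, add_zero,
    integral_tmax] at master
  obtain ⟨z₁, hz₁⟩ : ∃ z, z = zmom C₁ := ⟨_, rfl⟩
  obtain ⟨z₂, hz₂⟩ : ∃ z, z = zmom C₂ := ⟨_, rfl⟩
  obtain ⟨z₃, hz₃⟩ : ∃ z, z = zmom C₃ := ⟨_, rfl⟩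
  rw [← hz₁, ← hz₂, ← hz₃] at master hsum ⊢
  have hpi := Real.pi_pos
  have hp := phi0_pos
  have hzero : ‖z₁ + z₂ + z₃‖ ^ 2 = 0 := by
    rw [hsum, norm_zero]
    ring
  have e0 : ‖z₁ + z₂ + z₃‖ ^ 2 = ‖z₁‖ ^ 2 + ‖z₂‖ ^ 2 + ‖z₃‖ ^ 2
      + 2 * (⟪z₁, z₂⟫ + ⟪z₁, z₃⟫ + ⟪z₂, z₃⟫) := by
    rw [norm_add_sq_real, norm_add_sq_real, inner_add_left]
    ring
  have e1 : ‖z₁ - z₂‖ ^ 2 = ‖z₁‖ ^ 2 - 2 * ⟪z₁, z₂⟫ + ‖z₂‖ ^ 2 := norm_sub_sq_real z₁ z₂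
  have e2 : ‖z₂ - z₃‖ ^ 2 = ‖z₂‖ ^ 2 - 2 * ⟪z₂, z₃⟫ + ‖z₃‖ ^ 2 := norm_sub_sq_real z₂ z₃
  have e3 : ‖z₁ - z₃‖ ^ 2 = ‖z₁‖ ^ 2 - 2 * ⟪z₁, z₃⟫ + ‖z₃‖ ^ 2 := norm_sub_sq_real z₁ z₃
  obtain ⟨S, hS⟩ : ∃ S, S = ‖z₁‖ ^ 2 + ‖z₂‖ ^ 2 + ‖z₃‖ ^ 2 := ⟨_, rfl⟩
  have hS0 : 0 ≤ S := by
    rw [hS]
    positivity
  have hsq : ‖z₁ - z₂‖ ^ 2 + ‖z₂ - z₃‖ ^ 2 + ‖z₁ - z₃‖ ^ 2 = 3 * S := by
    rw [hS]
    linarith
  obtain ⟨a, ha⟩ : ∃ a, a = ‖z₁ - z₂‖ := ⟨_, rfl⟩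
  obtain ⟨b, hb⟩ : ∃ b, b = ‖z₂ - z₃‖ := ⟨_, rfl⟩
  obtain ⟨c, hc⟩ : ∃ c, c = ‖z₁ - z₃‖ := ⟨_, rfl⟩
  rw [← ha, ← hb, ← hc] at hsq master
  rw [← hS] at master ⊢
  have ha0 : 0 ≤ a := by
    rw [ha]
    exact norm_nonneg _
  have hb0 : 0 ≤ b := by
    rw [hb]
    exact norm_nonneg _
  have hc0 : 0 ≤ c := by
    rw [hc]
    exact norm_nonneg _
  have hL2 : (a + b + c) ^ 2 ≤ 9 * S := by
    nlinarith [sq_nonneg (a - b), sq_nonneg (b - c), sq_nonneg (a - c)]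
  have h1 : S ^ 2 ≤ ((a + b + c) / 2 * phi0) ^ 2 := pow_le_pow_left₀ hS0 master 2
  have h2 : ((a + b + c) / 2 * phi0) ^ 2 = (a + b + c) ^ 2 * phi0 ^ 2 / 4 := by ring
  have h3 : (a + b + c) ^ 2 * phi0 ^ 2 ≤ 9 * S * phi0 ^ 2 :=
    mul_le_mul_of_nonneg_right hL2 (sq_nonneg phi0)
  have h4 : S * S ≤ 9 * phi0 ^ 2 / 4 * S := by
    have h5 : S * S = S ^ 2 := by ring
    rw [h5]
    linarith
  have hB : 9 * phi0 ^ 2 / 4 = 9 / (8 * Real.pi) := by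
    rw [phi0_sq]
    field_simp
    ring
  rw [← hB]
  rcases eq_or_lt_of_le hS0 with h0 | hpos
  · rw [← h0]
    positivity
  · exact le_of_mul_le_mul_right h4 hpos

/-- Three pairwise disjoint measurable cells, not necessarily covering: the first moment of the
remainder is minus the sum of the three first moments, and it costs a third of its square. -/
theorem three_merge_bound (A₁ A₂ A₃ : Set E) (h₁ : MeasurableSet A₁) (h₂ : MeasurableSet A₂)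
    (h₃ : MeasurableSet A₃) (d12 : Disjoint A₁ A₂) (d13 : Disjoint A₁ A₃) (d23 : Disjoint A₂ A₃) :
    ‖zmom A₁‖ ^ 2 + ‖zmom A₂‖ ^ 2 + ‖zmom A₃‖ ^ 2
        + ‖zmom A₁ + zmom A₂ + zmom A₃‖ ^ 2 / 3 ≤ 9 / (8 * Real.pi) := by
  obtain ⟨R, hRdef⟩ : ∃ R, R = (A₁ ∪ A₂ ∪ A₃)ᶜ := ⟨_, rfl⟩
  have hR : MeasurableSet R := by
    rw [hRdef]
    exact ((h₁.union h₂).union h₃).compl
  have dUR : Disjoint (A₁ ∪ A₂ ∪ A₃) R := by
    rw [hRdef]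
    exact disjoint_compl_right
  have d1R : Disjoint A₁ R :=
    dUR.mono_left (Set.subset_union_left.trans Set.subset_union_left)
  have d2R : Disjoint A₂ R :=
    dUR.mono_left (Set.subset_union_right.trans Set.subset_union_left)
  have d3R : Disjoint A₃ R := dUR.mono_left Set.subset_union_right
  have hx4 : ∀ x, x ∈ A₁ ∨ x ∈ A₂ ∨ x ∈ A₃ ∨ x ∈ R := by
    intro x
    by_cases h : x ∈ A₁ ∪ A₂ ∪ A₃
    · rcases h with (h | h) | h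
      · exact Or.inl h
      · exact Or.inr (Or.inl h)
      · exact Or.inr (Or.inr (Or.inl h))
    · refine Or.inr (Or.inr (Or.inr ?_))
      rw [hRdef]
      exact h
  have hall : zmom A₁ + zmom A₂ + zmom A₃ + zmom R = 0 := by
    rw [← cover_zmom_union3 A₁ A₂ A₃ h₂ h₃ d12 d13 d23,
      ← cover_zmom_union (A₁ ∪ A₂ ∪ A₃) R hR dUR]
    have hu : A₁ ∪ A₂ ∪ A₃ ∪ R = Set.univ := by
      rw [hRdef]
      exact Set.union_compl_self _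
    rw [hu, cover_zmom_univ]
  have cov1 : A₁ ∪ R ∪ A₂ ∪ A₃ = Set.univ := by
    refine Set.eq_univ_of_forall (fun x => ?_)
    rcases hx4 x with h | h | h | h
    · exact Or.inl (Or.inl (Or.inl h))
    · exact Or.inl (Or.inr h)
    · exact Or.inr h
    · exact Or.inl (Or.inl (Or.inr h))
  have cov2 : A₁ ∪ (A₂ ∪ R) ∪ A₃ = Set.univ := by
    refine Set.eq_univ_of_forall (fun x => ?_)
    rcases hx4 x with h | h | h | h
    · exact Or.inl (Or.inl h)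
    · exact Or.inl (Or.inr (Or.inl h))
    · exact Or.inr h
    · exact Or.inl (Or.inr (Or.inr h))
  have cov3 : A₁ ∪ A₂ ∪ (A₃ ∪ R) = Set.univ := by
    refine Set.eq_univ_of_forall (fun x => ?_)
    rcases hx4 x with h | h | h | h
    · exact Or.inl (Or.inl h)
    · exact Or.inl (Or.inr h)
    · exact Or.inr (Or.inl h)
    · exact Or.inr (Or.inr h)
  have I1 := three_cover_bound (A₁ ∪ R) A₂ A₃ (h₁.union hR) h₂ h₃
    (Set.disjoint_union_left.mpr ⟨d12, d2R.symm⟩)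
    (Set.disjoint_union_left.mpr ⟨d13, d3R.symm⟩) d23 cov1
  have I2 := three_cover_bound A₁ (A₂ ∪ R) A₃ h₁ (h₂.union hR) h₃
    (Set.disjoint_union_right.mpr ⟨d12, d1R⟩) d13
    (Set.disjoint_union_left.mpr ⟨d23, d3R.symm⟩) cov2
  have I3 := three_cover_bound A₁ A₂ (A₃ ∪ R) h₁ h₂ (h₃.union hR) d12
    (Set.disjoint_union_right.mpr ⟨d13, d1R⟩)
    (Set.disjoint_union_right.mpr ⟨d23, d2R⟩) cov3
  rw [cover_zmom_union A₁ R hR d1R] at I1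
  rw [cover_zmom_union A₂ R hR d2R] at I2
  rw [cover_zmom_union A₃ R hR d3R] at I3
  obtain ⟨z₁, hz₁⟩ : ∃ z, z = zmom A₁ := ⟨_, rfl⟩
  obtain ⟨z₂, hz₂⟩ : ∃ z, z = zmom A₂ := ⟨_, rfl⟩
  obtain ⟨z₃, hz₃⟩ : ∃ z, z = zmom A₃ := ⟨_, rfl⟩
  rw [← hz₁, ← hz₂, ← hz₃] at I1 I2 I3 hall ⊢
  have hzR : zmom R = -(z₁ + z₂ + z₃) := by
    have h5 : zmom R = (z₁ + z₂ + z₃ + zmom R) - (z₁ + z₂ + z₃) := by abel
    rw [h5, hall, zero_sub]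
  rw [hzR] at I1 I2 I3
  obtain ⟨w, hw⟩ : ∃ w, w = z₁ + z₂ + z₃ := ⟨_, rfl⟩
  rw [← hw] at I1 I2 I3 ⊢
  have e1 : ‖z₁ + -w‖ ^ 2 = ‖z₁‖ ^ 2 - 2 * ⟪z₁, w⟫ + ‖w‖ ^ 2 := by
    rw [← sub_eq_add_neg]
    exact norm_sub_sq_real z₁ w
  have e2 : ‖z₂ + -w‖ ^ 2 = ‖z₂‖ ^ 2 - 2 * ⟪z₂, w⟫ + ‖w‖ ^ 2 := by
    rw [← sub_eq_add_neg]
    exact norm_sub_sq_real z₂ w
  have e3 : ‖z₃ + -w‖ ^ 2 = ‖z₃‖ ^ 2 - 2 * ⟪z₃, w⟫ + ‖w‖ ^ 2 := by
    rw [← sub_eq_add_neg]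
    exact norm_sub_sq_real z₃ w
  have e4 : ⟪z₁, w⟫ + ⟪z₂, w⟫ + ⟪z₃, w⟫ = ‖w‖ ^ 2 := by
    rw [← inner_add_left, ← inner_add_left, ← hw, real_inner_self_eq_norm_sq]
  rw [e1] at I1
  rw [e2] at I2
  rw [e3] at I3
  linarith

end Vale.Agent.Lib.P226
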