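import Vale.Agent.Lib.P226.Cell
import Vale.Agent.Lib.P226.Symmetric

/-!
# P226: three arbitrary cells plus cells of tiny Gaussian measure

Common definitions for the files under `Lib/P226/Dust`.
-/

open MeasureTheory ProbabilityTheory
open scoped RealInnerProductSpace

namespace Vale.Agent.Lib.P226

variable {E : Type*} [NormedAddCommGroup E] [InnerProductSpace ℝ E]

/-- The maximum of the three linear forms `⟪a, ·⟫`, `⟪b, ·⟫`, `⟪c, ·⟫`. -/
noncomputable def tmax (a b c x : E) : ℝ := max ⟪a, x⟫ (max ⟪b, x⟫ ⟪c, x⟫)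

/-- The larger of the absolute values of the two coordinates `⟪e₁, ·⟫`, `⟪e₂, ·⟫`. -/
noncomputable def nmax (e₁ e₂ x : E) : ℝ := max |⟪e₁, x⟫| |⟪e₂, x⟫|

theorem tmax_def (a b c x : E) : tmax a b c x = max ⟪a, x⟫ (max ⟪b, x⟫ ⟪c, x⟫) := rfl

theorem nmax_def (e₁ e₂ x : E) : nmax e₁ e₂ x = max |⟪e₁, x⟫| |⟪e₂, x⟫| := rfl

theorem nmax_nonneg (e₁ e₂ x : E) : 0 ≤ nmax e₁ e₂ x :=
  le_trans (abs_nonneg _) (le_max_left _ _)

end Vale.Agent.Lib.P226
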