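import Vale.Agent.Lib.P226.Dust.Core

/-!
# P226 / Dust: all but at most three cells of tiny Gaussian measure
-/

open MeasureTheory ProbabilityTheory
open scoped RealInnerProductSpace

namespace Vale.Agent.Lib.P226

variable {E : Type*} [NormedAddCommGroup E] [InnerProductSpace ℝ E] [FiniteDimensional ℝ E]
  [MeasurableSpace E] [BorelSpace E]

theorem dust_finset {ι : Type*} [Fintype ι] (A : ι → Set E)
    (hmeas : ∀ i, MeasurableSet (A i))
    (hdisj : Pairwise (fun i j => Disjoint (A i) (A j)))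
    (T : Finset ι) (hT : T.card ≤ 3)
    (hsmall : ∀ i, i ∉ T → (stdGaussian E).real (A i) ≤ 1 / 10 ^ 11) :
    ∑ i, ‖∫ x in A i, x ∂(stdGaussian E)‖ ^ 2 ≤ 9 / (8 * Real.pi) := by
  classical
  have hgoal : ∑ i, ‖∫ x in A i, x ∂(stdGaussian E)‖ ^ 2 = ∑ i, ‖zmom (A i)‖ ^ 2 := rfl
  rw [hgoal]
  -- split the sum into the exceptional cells and the tiny cells
  have hsplit : ∑ i, ‖zmom (A i)‖ ^ 2
      = ∑ i ∈ T, ‖zmom (A i)‖ ^ 2 + ∑ j : {i // i ∉ T}, ‖zmom (A j.1)‖ ^ 2 := by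
    rw [← Finset.sum_add_sum_compl T]
    congr 1
    exact Finset.sum_subtype (p := fun i => i ∉ T) (Tᶜ) (fun x => by simp)
      (fun i => ‖zmom (A i)‖ ^ 2)
  -- the core estimate with the tiny cells as the family
  have hmain : ∀ (A₁ A₂ A₃ : Set E), MeasurableSet A₁ → MeasurableSet A₂ → MeasurableSet A₃ →
      Disjoint A₁ A₂ → Disjoint A₁ A₃ → Disjoint A₂ A₃ →
      (∀ j : {i // i ∉ T}, Disjoint A₁ (A j.1)) → (∀ j : {i // i ∉ T}, Disjoint A₂ (A j.1)) →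
      (∀ j : {i // i ∉ T}, Disjoint A₃ (A j.1)) →
      ‖zmom A₁‖ ^ 2 + ‖zmom A₂‖ ^ 2 + ‖zmom A₃‖ ^ 2
        + ∑ j : {i // i ∉ T}, ‖zmom (A j.1)‖ ^ 2 ≤ 9 / (8 * Real.pi) := by
    intro A₁ A₂ A₃ h₁ h₂ h₃ d12 d13 d23 d1B d2B d3B
    exact dust_core A₁ A₂ A₃ (fun j : {i // i ∉ T} => A j.1) h₁ h₂ h₃ (fun j => hmeas j.1)
      d12 d13 d23 d1B d2B d3B
      (fun j j' hne => hdisj (fun h => hne (Subtype.ext h))) (fun j => hsmall j.1 j.2)
  have hout : ∀ a ∈ T, ∀ j : {i // i ∉ T}, Disjoint (A a) (A j.1) :=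
    fun a ha j => hdisj (fun h => j.2 (h ▸ ha))
  have hE : ∀ S : Set E, Disjoint (∅ : Set E) S := fun S => Set.empty_disjoint S
  have hE' : ∀ S : Set E, Disjoint S (∅ : Set E) := fun S => Set.disjoint_empty S
  have h0 : ‖zmom (∅ : Set E)‖ ^ 2 = 0 := by
    rw [zmom_empty, norm_zero]; norm_num
  rw [hsplit]
  have hcard : T.card = 0 ∨ T.card = 1 ∨ T.card = 2 ∨ T.card = 3 := by omega
  rcases hcard with hc | hc | hc | hc
  · have hTe := Finset.card_eq_zero.mp hc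
    have hsum : ∑ i ∈ T, ‖zmom (A i)‖ ^ 2 = 0 := by
      rw [hTe, Finset.sum_empty]
    have h := hmain ∅ ∅ ∅ MeasurableSet.empty MeasurableSet.empty MeasurableSet.empty
      (hE _) (hE _) (hE _) (fun j => hE _) (fun j => hE _) (fun j => hE _)
    rw [h0] at h
    rw [hsum]
    linarith
  · obtain ⟨a, hTe⟩ := Finset.card_eq_one.mp hc
    have ha : a ∈ T := by rw [hTe]; exact Finset.mem_singleton_self a
    have hsum : ∑ i ∈ T, ‖zmom (A i)‖ ^ 2 = ‖zmom (A a)‖ ^ 2 := by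
      rw [hTe, Finset.sum_singleton]
    have h := hmain (A a) ∅ ∅ (hmeas a) MeasurableSet.empty MeasurableSet.empty
      (hE' _) (hE' _) (hE _) (hout a ha) (fun j => hE _) (fun j => hE _)
    rw [h0] at h
    rw [hsum]
    linarith
  · obtain ⟨a, b, hab, hTe⟩ := Finset.card_eq_two.mp hc
    have ha : a ∈ T := by rw [hTe]; simp
    have hb : b ∈ T := by rw [hTe]; simp
    have hsum : ∑ i ∈ T, ‖zmom (A i)‖ ^ 2 = ‖zmom (A a)‖ ^ 2 + ‖zmom (A b)‖ ^ 2 := by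
      rw [hTe, Finset.sum_pair hab]
    have h := hmain (A a) (A b) ∅ (hmeas a) (hmeas b) MeasurableSet.empty
      (hdisj hab) (hE' _) (hE' _) (hout a ha) (hout b hb) (fun j => hE _)
    rw [h0] at h
    rw [hsum]
    linarith
  · obtain ⟨a, b, c, hab, hac, hbc, hTe⟩ := Finset.card_eq_three.mp hc
    have ha : a ∈ T := by rw [hTe]; simp
    have hb : b ∈ T := by rw [hTe]; simp
    have hcT : c ∈ T := by rw [hTe]; simp
    have hsum : ∑ i ∈ T, ‖zmom (A i)‖ ^ 2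
        = ‖zmom (A a)‖ ^ 2 + ‖zmom (A b)‖ ^ 2 + ‖zmom (A c)‖ ^ 2 := by
      rw [hTe, Finset.sum_insert (by simp [hab, hac]), Finset.sum_pair hbc]
      ring
    have h := hmain (A a) (A b) (A c) (hmeas a) (hmeas b) (hmeas c)
      (hdisj hab) (hdisj hac) (hdisj hbc) (hout a ha) (hout b hb) (hout c hcT)
    rw [hsum]
    linarith

end Vale.Agent.Lib.P226
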