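import Vale.Agent.Lib.P226.Dust.Defs

/-!
# P226 / Dust: three orthonormal coordinates of a standard Gaussian vector are independent
-/

open MeasureTheory ProbabilityTheory
open scoped RealInnerProductSpace

namespace Vale.Agent.Lib.P226

variable {E : Type*} [NormedAddCommGroup E] [InnerProductSpace ℝ E] [FiniteDimensional ℝ E]
  [MeasurableSpace E] [BorelSpace E]

private theorem cov_inner_stdGaussian (u v : E) :
    cov[fun x => ⟪u, x⟫, fun x => ⟪v, x⟫; stdGaussian E] = ⟪u, v⟫ := by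
  have h := covarianceBilin_apply_eq_cov (μ := stdGaussian E) IsGaussian.memLp_two_id u v
  rw [← h, covarianceBilin_stdGaussian]
  exact innerSL_apply_apply ℝ u v

private theorem map_inner_unit (e : E) (h : ‖e‖ = 1) :
    (stdGaussian E).map (fun x => ⟪e, x⟫) = gaussianReal 0 1 := by
  rw [map_inner_stdGaussian, h]
  simp

private theorem indep_pair (u v : E) (h : ⟪u, v⟫ = 0) :
    IndepFun (fun x : E => ⟪u, x⟫) (fun x : E => ⟪v, x⟫) (stdGaussian E) := by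
  have hG : HasGaussianLaw (fun x : E => (⟪u, x⟫, ⟪v, x⟫)) (stdGaussian E) := by
    have h0 : HasGaussianLaw (id : E → E) (stdGaussian E) := IsGaussian.hasGaussianLaw_id
    exact h0.map_fun ((innerSL ℝ u).prod (innerSL ℝ v))
  refine hG.indepFun_of_covariance_eq_zero ?_
  rw [cov_inner_stdGaussian, h]

private theorem indep_triple (e₁ e₂ e₃ : E) (h13 : ⟪e₁, e₃⟫ = 0) (h23 : ⟪e₂, e₃⟫ = 0) :
    IndepFun (fun x : E => ⟪e₃, x⟫) (fun x : E => (⟪e₁, x⟫, ⟪e₂, x⟫)) (stdGaussian E) := by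
  have hG : HasGaussianLaw (fun x : E => (⟪e₃, x⟫, (⟪e₁, x⟫, ⟪e₂, x⟫))) (stdGaussian E) := by
    have h0 : HasGaussianLaw (id : E → E) (stdGaussian E) := IsGaussian.hasGaussianLaw_id
    exact h0.map_fun ((innerSL ℝ e₃).prod ((innerSL ℝ e₁).prod (innerSL ℝ e₂)))
  refine hG.indepFun_of_covariance_strongDual ?_
  intro L₁ L₂
  have hL1 : (L₁ ∘ fun x : E => ⟪e₃, x⟫) = fun x : E => ⟪L₁ 1 • e₃, x⟫ := by
    funext x
    have : (⟪e₃, x⟫ : ℝ) = ⟪e₃, x⟫ • (1 : ℝ) := by simp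
    simp only [Function.comp_apply, real_inner_smul_left]
    rw [this, map_smul]
    simp [mul_comm]
  have hL2 : (L₂ ∘ fun x : E => (⟪e₁, x⟫, ⟪e₂, x⟫))
      = fun x : E => ⟪L₂ (1, 0) • e₁ + L₂ (0, 1) • e₂, x⟫ := by
    funext x
    have : ((⟪e₁, x⟫, ⟪e₂, x⟫) : ℝ × ℝ) = ⟪e₁, x⟫ • ((1 : ℝ), (0 : ℝ)) + ⟪e₂, x⟫ • ((0 : ℝ), (1 : ℝ)) := by
      simp
    simp only [Function.comp_apply, inner_add_left, real_inner_smul_left]
    rw [this, map_add, map_smul, map_smul]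
    simp [mul_comm]
  rw [hL1, hL2, cov_inner_stdGaussian]
  have h31 : ⟪e₃, e₁⟫ = 0 := by rw [real_inner_comm]; exact h13
  have h32 : ⟪e₃, e₂⟫ = 0 := by rw [real_inner_comm]; exact h23
  simp [inner_add_right, real_inner_smul_left, real_inner_smul_right, h31, h32]

theorem map_triple_stdGaussian (e₁ e₂ e₃ : E) (h1 : ‖e₁‖ = 1) (h2 : ‖e₂‖ = 1) (h3 : ‖e₃‖ = 1)
    (h12 : ⟪e₁, e₂⟫ = 0) (h13 : ⟪e₁, e₃⟫ = 0) (h23 : ⟪e₂, e₃⟫ = 0) :
    (stdGaussian E).map (fun x => (⟪e₃, x⟫, ⟪e₁, x⟫, ⟪e₂, x⟫))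
      = (gaussianReal 0 1).prod ((gaussianReal 0 1).prod (gaussianReal 0 1)) := by
  have hA := (indepFun_iff_map_prod_eq_prod_map_map (μ := stdGaussian E)
    (f := fun x : E => ⟪e₃, x⟫) (g := fun x : E => (⟪e₁, x⟫, ⟪e₂, x⟫))
    (by fun_prop) (by fun_prop)).1 (indep_triple e₁ e₂ e₃ h13 h23)
  have hB := (indepFun_iff_map_prod_eq_prod_map_map (μ := stdGaussian E)
    (f := fun x : E => ⟪e₁, x⟫) (g := fun x : E => ⟪e₂, x⟫)
    (by fun_prop) (by fun_prop)).1 (indep_pair e₁ e₂ h12)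
  rw [hA, hB, map_inner_unit e₁ h1, map_inner_unit e₂ h2, map_inner_unit e₃ h3]

end Vale.Agent.Lib.P226
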