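import Mathlib

/-!
# P226 / Dust: a cone estimate for three independent standard Gaussian variables
-/

open MeasureTheory ProbabilityTheory

namespace Vale.Agent.Lib.P226

/-- The standard Gaussian density is at most `2 / 5`. -/
theorem prodest_pdf_le (x : ℝ) : gaussianPDFReal 0 1 x ≤ 2 / 5 := by
  rw [gaussianPDFReal_def]
  simp only [NNReal.coe_one, mul_one, sub_zero]
  have h1 : Real.exp (-x ^ 2 / 2) ≤ 1 := by
    rw [Real.exp_le_one_iff]
    have : 0 ≤ x ^ 2 := sq_nonneg _
    linarith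
  have hpi := Real.pi_gt_d2
  have h2 : (5 / 2 : ℝ) ≤ Real.sqrt (2 * Real.pi) := by
    apply Real.le_sqrt_of_sq_le
    norm_num
    linarith
  have h3 : (Real.sqrt (2 * Real.pi))⁻¹ ≤ 2 / 5 := by
    have h5 : (0 : ℝ) < 5 / 2 := by norm_num
    have h6 : (Real.sqrt (2 * Real.pi))⁻¹ ≤ (5 / 2 : ℝ)⁻¹ := inv_anti₀ h5 h2
    have h7 : (5 / 2 : ℝ)⁻¹ = 2 / 5 := by norm_num
    rw [h7] at h6
    exact h6
  have h4 : 0 ≤ (Real.sqrt (2 * Real.pi))⁻¹ := by positivity
  calc (Real.sqrt (2 * Real.pi))⁻¹ * Real.exp (-x ^ 2 / 2)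
      ≤ (Real.sqrt (2 * Real.pi))⁻¹ * 1 := mul_le_mul_of_nonneg_left h1 h4
    _ ≤ 2 / 5 := by rw [mul_one]; exact h3

/-- The standard Gaussian measure of a symmetric interval of half-length `s` is at most
`(4 / 5) s`. -/
theorem prodest_interval_le {s : ℝ} (hs : 0 ≤ s) :
    (gaussianReal 0 1).real {y : ℝ | |y| < s} ≤ 4 / 5 * s := by
  have hset : {y : ℝ | |y| < s} = Set.Ioo (-s) s := by
    ext y
    simp [abs_lt]
  have hnn : 0 ≤ ∫ x in Set.Ioo (-s) s, gaussianPDFReal 0 1 x :=
    setIntegral_nonneg measurableSet_Ioo (fun x _ => gaussianPDFReal_nonneg 0 1 x)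
  rw [hset, measureReal_def, gaussianReal_apply_eq_integral 0 one_ne_zero,
    ENNReal.toReal_ofReal hnn]
  have hvol : (volume : Measure ℝ) (Set.Ioo (-s) s) ≠ ⊤ := by
    rw [Real.volume_Ioo]
    exact ENNReal.ofReal_ne_top
  have hmono : ∫ x in Set.Ioo (-s) s, gaussianPDFReal 0 1 x
      ≤ ∫ _x in Set.Ioo (-s) s, (2 / 5 : ℝ) := by
    apply setIntegral_mono_on
    · exact (integrable_gaussianPDFReal 0 1).integrableOn
    · exact integrableOn_const hvol
    · exact measurableSet_Ioo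
    · intro x _
      exact prodest_pdf_le x
  have hconst : ∫ _x in Set.Ioo (-s) s, (2 / 5 : ℝ) = 4 / 5 * s := by
    rw [setIntegral_const, measureReal_def, Real.volume_Ioo, ENNReal.toReal_ofReal (by linarith)]
    simp only [smul_eq_mul]
    ring
  linarith

/-- Pointwise bound of the positive cube by an exponential. -/
theorem prodest_cube_le_exp (x : ℝ) :
    (max x 0) ^ 3 ≤ 27 / 8 * Real.exp (-3) * Real.exp (2 * x) := by
  have hpos : 0 ≤ 27 / 8 * Real.exp (-3) * Real.exp (2 * x) := by positivity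
  rcases le_or_gt x 0 with hx | hx
  · rw [max_eq_right hx]
    simpa using hpos
  · rw [max_eq_left hx.le]
    have hu : 2 * x / 3 ≤ Real.exp (2 * x / 3 - 1) := by
      have := Real.add_one_le_exp (2 * x / 3 - 1)
      linarith
    have hu0 : 0 ≤ 2 * x / 3 := by positivity
    have hu3 : (2 * x / 3) ^ 3 ≤ Real.exp (2 * x / 3 - 1) ^ 3 := pow_le_pow_left₀ hu0 hu 3
    have he : Real.exp (2 * x / 3 - 1) ^ 3 = Real.exp (-3) * Real.exp (2 * x) := by
      rw [← Real.exp_nat_mul, ← Real.exp_add]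
      congr 1
      push_cast
      ring
    rw [he] at hu3
    have : x ^ 3 = 27 / 8 * (2 * x / 3) ^ 3 := by ring
    rw [this]
    nlinarith

/-- The positive cube is integrable against the standard Gaussian. -/
theorem prodest_cube_integrable :
    Integrable (fun x : ℝ => (max x 0) ^ 3) (gaussianReal 0 1) := by
  have hexp : Integrable (fun x : ℝ => 27 / 8 * Real.exp (-3) * Real.exp (2 * x))
      (gaussianReal 0 1) := (integrable_exp_mul_gaussianReal 2).const_mul _
  refine hexp.mono' ?_ ?_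
  · have hc : Continuous (fun x : ℝ => (max x 0) ^ 3) := by fun_prop
    exact hc.aestronglyMeasurable
  · refine Filter.Eventually.of_forall (fun x => ?_)
    have h0 : 0 ≤ (max x 0) ^ 3 := by positivity
    rw [Real.norm_eq_abs, abs_of_nonneg h0]
    exact prodest_cube_le_exp x

/-- The third moment of the positive side of a standard Gaussian is at most `5 / 4`. -/
theorem prodest_cube_moment : ∫ x : ℝ, (max x 0) ^ 3 ∂(gaussianReal 0 1) ≤ 5 / 4 := by
  have hexp : Integrable (fun x : ℝ => 27 / 8 * Real.exp (-3) * Real.exp (2 * x))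
      (gaussianReal 0 1) := (integrable_exp_mul_gaussianReal 2).const_mul _
  have hmgf : ∫ x : ℝ, Real.exp (2 * x) ∂(gaussianReal 0 1) = Real.exp 2 := by
    have h := congrFun (mgf_fun_id_gaussianReal (μ := 0) (v := 1)) 2
    simp only [mgf, NNReal.coe_one, zero_mul, zero_add, one_mul] at h
    rw [h]
    congr 1
    norm_num
  have hle : ∫ x : ℝ, (max x 0) ^ 3 ∂(gaussianReal 0 1)
      ≤ ∫ x : ℝ, 27 / 8 * Real.exp (-3) * Real.exp (2 * x) ∂(gaussianReal 0 1) :=
    integral_mono prodest_cube_integrable hexp prodest_cube_le_exp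
  rw [integral_const_mul, hmgf] at hle
  have he : Real.exp (-3) * Real.exp 2 = (Real.exp 1)⁻¹ := by
    rw [← Real.exp_add, ← Real.exp_neg]
    congr 1
    norm_num
  have he1 : (27 / 10 : ℝ) ≤ Real.exp 1 := by
    have := Real.exp_one_gt_d9
    linarith
  have hinv : (Real.exp 1)⁻¹ ≤ 10 / 27 := by
    have h5 : (0 : ℝ) < 27 / 10 := by norm_num
    have h6 : (Real.exp 1)⁻¹ ≤ (27 / 10 : ℝ)⁻¹ := inv_anti₀ h5 he1
    have h7 : (27 / 10 : ℝ)⁻¹ = 10 / 27 := by norm_num
    rw [h7] at h6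
    exact h6
  calc ∫ x : ℝ, (max x 0) ^ 3 ∂(gaussianReal 0 1)
      ≤ 27 / 8 * Real.exp (-3) * Real.exp 2 := hle
    _ = 27 / 8 * (Real.exp (-3) * Real.exp 2) := by ring
    _ = 27 / 8 * (Real.exp 1)⁻¹ := by rw [he]
    _ ≤ 27 / 8 * (10 / 27) := by linarith
    _ = 5 / 4 := by norm_num

/-- `E (2 λ n - ρ max(|a|, |b|))₊ ≤ 8 λ³ / ρ²` for independent standard Gaussians `n, a, b`. -/
theorem prod_cone_estimate {lam ρ : ℝ} (hlam : 0 ≤ lam) (hρ : 0 < ρ) :
    ∫ p : ℝ × ℝ × ℝ, max (2 * lam * p.1 - ρ * max |p.2.1| |p.2.2|) 0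
        ∂((gaussianReal 0 1).prod ((gaussianReal 0 1).prod (gaussianReal 0 1)))
      ≤ 8 * lam ^ 3 / ρ ^ 2 := by
  set N : Measure ℝ := gaussianReal 0 1 with hN
  have hcont : Continuous
      (fun p : ℝ × ℝ × ℝ => max (2 * lam * p.1 - ρ * max |p.2.1| |p.2.2|) 0) := by
    fun_prop
  have habs : Integrable (fun x : ℝ => 2 * lam * |x|) N := by
    have h1 : Integrable (fun x : ℝ => x) N := (memLp_id_gaussianReal 1).integrable le_rfl
    exact h1.abs.const_mul _
  have hint : Integrable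
      (fun p : ℝ × ℝ × ℝ => max (2 * lam * p.1 - ρ * max |p.2.1| |p.2.2|) 0)
      (N.prod (N.prod N)) := by
    refine (habs.comp_fst (N.prod N)).mono' hcont.aestronglyMeasurable ?_
    refine Filter.Eventually.of_forall (fun p => ?_)
    have h0 : 0 ≤ max (2 * lam * p.1 - ρ * max |p.2.1| |p.2.2|) 0 := le_max_right _ _
    rw [Real.norm_eq_abs, abs_of_nonneg h0]
    apply max_le
    · have h1 : 0 ≤ ρ * max |p.2.1| |p.2.2| := by positivity
      have h2 : 2 * lam * p.1 ≤ 2 * lam * |p.1| :=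
        mul_le_mul_of_nonneg_left (le_abs_self _) (by positivity)
      linarith
    · positivity
  rw [integral_prod _ hint]
  have hinner : ∀ n : ℝ,
      ∫ q : ℝ × ℝ, max (2 * lam * n - ρ * max |q.1| |q.2|) 0 ∂(N.prod N)
        ≤ 128 / 25 * lam ^ 3 / ρ ^ 2 * (max n 0) ^ 3 := by
    intro n
    set c : ℝ := 2 * lam * max n 0 with hc
    set s : ℝ := c / ρ with hs
    have hc0 : 0 ≤ c := by positivity
    have hs0 : 0 ≤ s := by positivity
    set S : Set ℝ := {y : ℝ | |y| < s} with hS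
    have hSm : MeasurableSet S := by
      have hIoo : S = Set.Ioo (-s) s := by
        ext y
        simp [hS, abs_lt]
      rw [hIoo]
      exact measurableSet_Ioo
    have hle : ∫ q : ℝ × ℝ, max (2 * lam * n - ρ * max |q.1| |q.2|) 0 ∂(N.prod N)
        ≤ ∫ q : ℝ × ℝ, (S ×ˢ S).indicator (fun _ => c) q ∂(N.prod N) := by
      apply integral_mono_of_nonneg
      · exact Filter.Eventually.of_forall (fun q => le_max_right _ _)
      · exact (integrable_const c).indicator (hSm.prod hSm)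
      · refine Filter.Eventually.of_forall (fun q => ?_)
        by_cases hq : q ∈ S ×ˢ S
        · rw [Set.indicator_of_mem hq]
          apply max_le _ hc0
          have h1 : 0 ≤ ρ * max |q.1| |q.2| := by positivity
          have h2 : 2 * lam * n ≤ 2 * lam * max n 0 :=
            mul_le_mul_of_nonneg_left (le_max_left _ _) (by positivity)
          linarith
        · rw [Set.indicator_of_notMem hq]
          apply max_le _ le_rfl
          have hq' : s ≤ max |q.1| |q.2| := by
            by_contra hcon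
            push Not at hcon
            apply hq
            exact ⟨lt_of_le_of_lt (le_max_left _ _) hcon,
              lt_of_le_of_lt (le_max_right _ _) hcon⟩
          have h2 : 2 * lam * n ≤ c :=
            mul_le_mul_of_nonneg_left (le_max_left _ _) (by positivity)
          have h3 : c = ρ * s := by
            rw [hs]
            field_simp
          have h4 : ρ * s ≤ ρ * max |q.1| |q.2| := mul_le_mul_of_nonneg_left hq' hρ.le
          linarith
    rw [integral_indicator_const c (hSm.prod hSm), measureReal_prod_prod] at hle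
    have hSle : N.real S ≤ 4 / 5 * s := prodest_interval_le hs0
    have hS0 : 0 ≤ N.real S := measureReal_nonneg
    have hsq : N.real S * N.real S ≤ (4 / 5 * s) * (4 / 5 * s) :=
      mul_le_mul hSle hSle hS0 (by positivity)
    calc ∫ q : ℝ × ℝ, max (2 * lam * n - ρ * max |q.1| |q.2|) 0 ∂(N.prod N)
        ≤ (N.real S * N.real S) • c := hle
      _ = (N.real S * N.real S) * c := smul_eq_mul _ _
      _ ≤ (4 / 5 * s) * (4 / 5 * s) * c := mul_le_mul_of_nonneg_right hsq hc0
      _ = 128 / 25 * lam ^ 3 / ρ ^ 2 * (max n 0) ^ 3 := by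
        rw [hs, hc]
        field_simp
        ring
  have houter :
      ∫ n : ℝ, ∫ q : ℝ × ℝ, max (2 * lam * n - ρ * max |q.1| |q.2|) 0 ∂(N.prod N) ∂N
        ≤ ∫ n : ℝ, 128 / 25 * lam ^ 3 / ρ ^ 2 * (max n 0) ^ 3 ∂N := by
    apply integral_mono_of_nonneg
    · exact Filter.Eventually.of_forall
        (fun n => integral_nonneg (fun q => le_max_right _ _))
    · exact prodest_cube_integrable.const_mul _
    · exact Filter.Eventually.of_forall hinner
  rw [integral_const_mul] at houter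
  have hmom : ∫ n : ℝ, (max n 0) ^ 3 ∂N ≤ 5 / 4 := prodest_cube_moment
  have hk : 0 ≤ 128 / 25 * lam ^ 3 / ρ ^ 2 := by positivity
  have hfin : 0 ≤ lam ^ 3 / ρ ^ 2 := by positivity
  calc ∫ n : ℝ, ∫ q : ℝ × ℝ, max (2 * lam * n - ρ * max |q.1| |q.2|) 0 ∂(N.prod N) ∂N
      ≤ 128 / 25 * lam ^ 3 / ρ ^ 2 * ∫ n : ℝ, (max n 0) ^ 3 ∂N := houter
    _ ≤ 128 / 25 * lam ^ 3 / ρ ^ 2 * (5 / 4) := mul_le_mul_of_nonneg_left hmom hk
    _ = 32 / 5 * (lam ^ 3 / ρ ^ 2) := by ring
    _ ≤ 8 * (lam ^ 3 / ρ ^ 2) := by linarith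
    _ = 8 * lam ^ 3 / ρ ^ 2 := by ring

end Vale.Agent.Lib.P226
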