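import Vale.Agent.Lib.P226.Dust.JointLaw
import Vale.Agent.Lib.P226.Dust.ProdEst

/-!
# P226 / Dust: the component of a first moment orthogonal to a plane is controlled by the
in-plane size of the cell
-/

open MeasureTheory ProbabilityTheory
open scoped RealInnerProductSpace

namespace Vale.Agent.Lib.P226

variable {E : Type*} [NormedAddCommGroup E] [InnerProductSpace ℝ E] [FiniteDimensional ℝ E]
  [MeasurableSpace E] [BorelSpace E]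

theorem integrable_nmax (e₁ e₂ : E) : Integrable (nmax e₁ e₂) (stdGaussian E) := by
  have h1 : Integrable (fun x : E => |⟪e₁, x⟫|) (stdGaussian E) := (integrable_inner e₁).abs
  have h2 : Integrable (fun x : E => |⟪e₂, x⟫|) (stdGaussian E) := (integrable_inner e₂).abs
  have h := h1.sup h2
  have heq : nmax e₁ e₂ = (fun x : E => |⟪e₁, x⟫|) ⊔ (fun x : E => |⟪e₂, x⟫|) := by
    funext x
    rw [nmax_def, Pi.sup_apply]
  rw [heq]
  exact h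

theorem key_integral (e₁ e₂ e₃ : E) (h1 : ‖e₁‖ = 1) (h2 : ‖e₂‖ = 1) (h3 : ‖e₃‖ = 1)
    (h12 : ⟪e₁, e₂⟫ = 0) (h13 : ⟪e₁, e₃⟫ = 0) (h23 : ⟪e₂, e₃⟫ = 0)
    {lam ρ : ℝ} (hlam : 0 ≤ lam) (hρ : 0 < ρ) :
    ∫ x, max (2 * lam * ⟪e₃, x⟫ - ρ * nmax e₁ e₂ x) 0 ∂(stdGaussian E)
      ≤ 8 * lam ^ 3 / ρ ^ 2 := by
  have hc : Continuous (fun x : E => ((⟪e₃, x⟫ : ℝ), (⟪e₁, x⟫ : ℝ), (⟪e₂, x⟫ : ℝ))) := by
    fun_prop
  have hG : Continuous
      (fun p : ℝ × ℝ × ℝ => max (2 * lam * p.1 - ρ * max |p.2.1| |p.2.2|) 0) := by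
    fun_prop
  have hmap := map_triple_stdGaussian e₁ e₂ e₃ h1 h2 h3 h12 h13 h23
  have hint : ∫ x, max (2 * lam * ⟪e₃, x⟫ - ρ * nmax e₁ e₂ x) 0 ∂(stdGaussian E)
      = ∫ p : ℝ × ℝ × ℝ, max (2 * lam * p.1 - ρ * max |p.2.1| |p.2.2|) 0
        ∂((stdGaussian E).map
          (fun x : E => ((⟪e₃, x⟫ : ℝ), (⟪e₁, x⟫ : ℝ), (⟪e₂, x⟫ : ℝ)))) := by
    rw [integral_map hc.measurable.aemeasurable hG.aestronglyMeasurable]
    rfl
  rw [hint, hmap]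
  exact prod_cone_estimate hlam hρ

omit [FiniteDimensional ℝ E] [MeasurableSpace E] [BorelSpace E] in
/-- Inner product of the orthogonal part with the full vector. -/
theorem key_inner_aux (z e₁ e₂ q : E) (a b : ℝ) (hq : q = z - a • e₁ - b • e₂)
    (hq1 : ⟪e₁, q⟫ = 0) (hq2 : ⟪e₂, q⟫ = 0) : ⟪q, z⟫ = ‖q‖ ^ 2 := by
  have hz : z = q + a • e₁ + b • e₂ := by
    rw [hq]
    abel
  calc ⟪q, z⟫ = ⟪q, q + a • e₁ + b • e₂⟫ := by rw [← hz]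
    _ = ⟪q, q⟫ + a * ⟪q, e₁⟫ + b * ⟪q, e₂⟫ := by
        rw [inner_add_right, inner_add_right, inner_smul_right, inner_smul_right]
    _ = ‖q‖ ^ 2 := by
        rw [real_inner_comm e₁ q, real_inner_comm e₂ q, hq1, hq2, real_inner_self_eq_norm_sq]
        ring

theorem perp_sq_le (A : Set E) (hA : MeasurableSet A) (e₁ e₂ q : E)
    (h1 : ‖e₁‖ = 1) (h2 : ‖e₂‖ = 1) (h12 : ⟪e₁, e₂⟫ = 0)
    (hq : q = zmom A - ⟪e₁, zmom A⟫ • e₁ - ⟪e₂, zmom A⟫ • e₂)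
    {K ρ : ℝ} (hK : 0 < K) (hρ : 0 < ρ) (hsmall : 8 * K ^ 2 * ‖q‖ ≤ ρ ^ 2) :
    K * ‖q‖ ^ 2 ≤ ρ * ∫ x in A, nmax e₁ e₂ x ∂(stdGaussian E) := by
  have hnn : 0 ≤ ∫ x in A, nmax e₁ e₂ x ∂(stdGaussian E) :=
    setIntegral_nonneg hA (fun x _ => nmax_nonneg e₁ e₂ x)
  by_cases hq0 : q = 0
  · rw [hq0, norm_zero]
    have h0 : K * (0 : ℝ) ^ 2 = 0 := by ring
    rw [h0]
    exact mul_nonneg hρ.le hnn
  · have hqn : 0 < ‖q‖ := norm_pos_iff.mpr hq0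
    have he11 : ⟪e₁, e₁⟫ = 1 := by
      rw [real_inner_self_eq_norm_sq, h1]
      norm_num
    have he22 : ⟪e₂, e₂⟫ = 1 := by
      rw [real_inner_self_eq_norm_sq, h2]
      norm_num
    have h21 : ⟪e₂, e₁⟫ = 0 := by
      rw [real_inner_comm]
      exact h12
    have hq1 : ⟪e₁, q⟫ = 0 := by
      rw [hq, inner_sub_right, inner_sub_right, inner_smul_right, inner_smul_right, he11, h12]
      ring
    have hq2 : ⟪e₂, q⟫ = 0 := by
      rw [hq, inner_sub_right, inner_sub_right, inner_smul_right, inner_smul_right, h21, he22]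
      ring
    have hqz : ⟪q, zmom A⟫ = ‖q‖ ^ 2 :=
      key_inner_aux (zmom A) e₁ e₂ q _ _ hq hq1 hq2
    obtain ⟨e₃, he₃⟩ : ∃ e₃ : E, e₃ = ‖q‖⁻¹ • q := ⟨_, rfl⟩
    have h3 : ‖e₃‖ = 1 := by
      rw [he₃, norm_smul, norm_inv, norm_norm, inv_mul_cancel₀ hqn.ne']
    have h13 : ⟪e₁, e₃⟫ = 0 := by
      rw [he₃, inner_smul_right, hq1, mul_zero]
    have h23 : ⟪e₂, e₃⟫ = 0 := by
      rw [he₃, inner_smul_right, hq2, mul_zero]
    have he3z : ⟪e₃, zmom A⟫ = ‖q‖ := by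
      rw [he₃, real_inner_smul_left, hqz]
      field_simp
    have hlam : 0 ≤ K * ‖q‖ := by positivity
    have hI1 : Integrable (fun x : E => 2 * (K * ‖q‖) * ⟪e₃, x⟫ - ρ * nmax e₁ e₂ x)
        (stdGaussian E) :=
      ((integrable_inner e₃).const_mul (2 * (K * ‖q‖))).sub
        ((integrable_nmax e₁ e₂).const_mul ρ)
    have hF : Integrable
        (fun x : E => max (2 * (K * ‖q‖) * ⟪e₃, x⟫ - ρ * nmax e₁ e₂ x) 0) (stdGaussian E) :=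
      hI1.pos_part
    have hle : ∫ x in A, (2 * (K * ‖q‖) * ⟪e₃, x⟫ - ρ * nmax e₁ e₂ x) ∂(stdGaussian E)
        ≤ ∫ x in A, max (2 * (K * ‖q‖) * ⟪e₃, x⟫ - ρ * nmax e₁ e₂ x) 0 ∂(stdGaussian E) :=
      setIntegral_mono hI1.integrableOn hF.integrableOn (fun x => le_max_left _ _)
    have hle2 : ∫ x in A, max (2 * (K * ‖q‖) * ⟪e₃, x⟫ - ρ * nmax e₁ e₂ x) 0 ∂(stdGaussian E)
        ≤ ∫ x, max (2 * (K * ‖q‖) * ⟪e₃, x⟫ - ρ * nmax e₁ e₂ x) 0 ∂(stdGaussian E) :=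
      setIntegral_le_integral hF (ae_of_all _ (fun x => le_max_right _ _))
    have hkey := key_integral e₁ e₂ e₃ h1 h2 h3 h12 h13 h23 hlam hρ
    have hsplit : ∫ x in A, (2 * (K * ‖q‖) * ⟪e₃, x⟫ - ρ * nmax e₁ e₂ x) ∂(stdGaussian E)
        = 2 * (K * ‖q‖) * ‖q‖ - ρ * ∫ x in A, nmax e₁ e₂ x ∂(stdGaussian E) := by
      rw [integral_sub ((integrable_inner e₃).const_mul (2 * (K * ‖q‖))).integrableOn
        ((integrable_nmax e₁ e₂).const_mul ρ).integrableOn, integral_const_mul,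
        integral_const_mul, ← inner_zmom, he3z]
    have hbound : 8 * (K * ‖q‖) ^ 3 / ρ ^ 2 ≤ K * ‖q‖ ^ 2 := by
      rw [div_le_iff₀ (by positivity)]
      have hpos : 0 ≤ K * ‖q‖ ^ 2 := by positivity
      have h3' := mul_le_mul_of_nonneg_left hsmall hpos
      have e : 8 * (K * ‖q‖) ^ 3 = K * ‖q‖ ^ 2 * (8 * K ^ 2 * ‖q‖) := by ring
      rw [e]
      exact h3'
    have hchain : 2 * (K * ‖q‖) * ‖q‖ - ρ * ∫ x in A, nmax e₁ e₂ x ∂(stdGaussian E)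
        ≤ K * ‖q‖ ^ 2 := by
      rw [← hsplit]
      exact le_trans hle (le_trans hle2 (le_trans hkey hbound))
    have e2 : 2 * (K * ‖q‖) * ‖q‖ = 2 * (K * ‖q‖ ^ 2) := by ring
    rw [e2] at hchain
    linarith

end Vale.Agent.Lib.P226
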