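import Mathlib

/-!
# P226 / Dust: four vectors of a plane cannot have pairwise negative inner products
-/

open scoped RealInnerProductSpace

namespace Vale.Agent.Lib.P226

variable {E : Type*} [NormedAddCommGroup E] [InnerProductSpace ℝ E] [FiniteDimensional ℝ E]

theorem obtuse_parts (x : ℝ) : ∃ p n : ℝ, 0 ≤ p ∧ 0 ≤ n ∧ x = p - n ∧ p * n = 0 := by
  rcases le_total 0 x with h | h
  · exact ⟨x, 0, h, le_rfl, by ring, by ring⟩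
  · exact ⟨0, -x, le_rfl, by linarith, by ring, by ring⟩

omit [FiniteDimensional ℝ E] in
theorem obtuse_coeff_zero (u0 u1 u2 u3 : E) (h03 : ⟪u0, u3⟫ < 0) (h13 : ⟪u1, u3⟫ < 0)
    (h23 : ⟪u2, u3⟫ < 0) (a b c : ℝ) (ha : 0 ≤ a) (hb : 0 ≤ b) (hc : 0 ≤ c)
    (h : a • u0 + b • u1 + c • u2 = 0) : a = 0 ∧ b = 0 ∧ c = 0 := by
  have e : ⟪a • u0 + b • u1 + c • u2, u3⟫ = a * ⟪u0, u3⟫ + b * ⟪u1, u3⟫ + c * ⟪u2, u3⟫ := by
    simp only [inner_add_left, real_inner_smul_left]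
  rw [h, inner_zero_left] at e
  have t1 : a * ⟪u0, u3⟫ ≤ 0 := mul_nonpos_of_nonneg_of_nonpos ha h03.le
  have t2 : b * ⟪u1, u3⟫ ≤ 0 := mul_nonpos_of_nonneg_of_nonpos hb h13.le
  have t3 : c * ⟪u2, u3⟫ ≤ 0 := mul_nonpos_of_nonneg_of_nonpos hc h23.le
  have s1 : a * ⟪u0, u3⟫ = 0 := by linarith
  have s2 : b * ⟪u1, u3⟫ = 0 := by linarith
  have s3 : c * ⟪u2, u3⟫ = 0 := by linarith
  exact ⟨(mul_eq_zero.1 s1).resolve_right h03.ne, (mul_eq_zero.1 s2).resolve_right h13.ne,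
    (mul_eq_zero.1 s3).resolve_right h23.ne⟩

omit [FiniteDimensional ℝ E] in
theorem obtuse_aux (u0 u1 u2 u3 : E) (h01 : ⟪u0, u1⟫ < 0) (h02 : ⟪u0, u2⟫ < 0)
    (h12 : ⟪u1, u2⟫ < 0) (h03 : ⟪u0, u3⟫ < 0) (h13 : ⟪u1, u3⟫ < 0) (h23 : ⟪u2, u3⟫ < 0)
    (x y z : ℝ) (hrel : x • u0 + y • u1 + z • u2 = 0) : x = 0 ∧ y = 0 ∧ z = 0 := by
  obtain ⟨xp, xn, hxp, hxn, hx, hxx⟩ := obtuse_parts x
  obtain ⟨yp, yn, hyp, hyn, hy, hyy⟩ := obtuse_parts y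
  obtain ⟨zp, zn, hzp, hzn, hz, hzz⟩ := obtuse_parts z
  have hpn : xp • u0 + yp • u1 + zp • u2 = xn • u0 + yn • u1 + zn • u2 := by
    have h : (xp • u0 + yp • u1 + zp • u2) - (xn • u0 + yn • u1 + zn • u2) =
        x • u0 + y • u1 + z • u2 := by
      rw [hx, hy, hz, sub_smul, sub_smul, sub_smul]
      abel
    rw [hrel] at h
    exact sub_eq_zero.1 h
  have c10 : ⟪u1, u0⟫ = ⟪u0, u1⟫ := real_inner_comm _ _
  have c20 : ⟪u2, u0⟫ = ⟪u0, u2⟫ := real_inner_comm _ _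
  have c21 : ⟪u2, u1⟫ = ⟪u1, u2⟫ := real_inner_comm _ _
  have hexp : ⟪xp • u0 + yp • u1 + zp • u2, xn • u0 + yn • u1 + zn • u2⟫ =
      xp * xn * ⟪u0, u0⟫ + xp * yn * ⟪u0, u1⟫ + xp * zn * ⟪u0, u2⟫
        + yp * xn * ⟪u0, u1⟫ + yp * yn * ⟪u1, u1⟫ + yp * zn * ⟪u1, u2⟫
        + zp * xn * ⟪u0, u2⟫ + zp * yn * ⟪u1, u2⟫ + zp * zn * ⟪u2, u2⟫ := by
    simp only [inner_add_left, inner_add_right, real_inner_smul_left, real_inner_smul_right,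
      c10, c20, c21]
    ring
  have hself : ⟪xp • u0 + yp • u1 + zp • u2, xp • u0 + yp • u1 + zp • u2⟫ =
      ⟪xp • u0 + yp • u1 + zp • u2, xn • u0 + yn • u1 + zn • u2⟫ :=
    congrArg (fun w => ⟪xp • u0 + yp • u1 + zp • u2, w⟫) hpn
  have d1 : xp * xn * ⟪u0, u0⟫ = 0 := by rw [hxx, zero_mul]
  have d2 : yp * yn * ⟪u1, u1⟫ = 0 := by rw [hyy, zero_mul]
  have d3 : zp * zn * ⟪u2, u2⟫ = 0 := by rw [hzz, zero_mul]
  have o1 : xp * yn * ⟪u0, u1⟫ ≤ 0 := mul_nonpos_of_nonneg_of_nonpos (mul_nonneg hxp hyn) h01.le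
  have o2 : xp * zn * ⟪u0, u2⟫ ≤ 0 := mul_nonpos_of_nonneg_of_nonpos (mul_nonneg hxp hzn) h02.le
  have o3 : yp * xn * ⟪u0, u1⟫ ≤ 0 := mul_nonpos_of_nonneg_of_nonpos (mul_nonneg hyp hxn) h01.le
  have o4 : yp * zn * ⟪u1, u2⟫ ≤ 0 := mul_nonpos_of_nonneg_of_nonpos (mul_nonneg hyp hzn) h12.le
  have o5 : zp * xn * ⟪u0, u2⟫ ≤ 0 := mul_nonpos_of_nonneg_of_nonpos (mul_nonneg hzp hxn) h02.le
  have o6 : zp * yn * ⟪u1, u2⟫ ≤ 0 := mul_nonpos_of_nonneg_of_nonpos (mul_nonneg hzp hyn) h12.le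
  have hle : ⟪xp • u0 + yp • u1 + zp • u2, xp • u0 + yp • u1 + zp • u2⟫ ≤ 0 := by
    rw [hself, hexp]
    linarith
  have hp0 : xp • u0 + yp • u1 + zp • u2 = 0 := real_inner_self_nonpos.1 hle
  have hn0 : xn • u0 + yn • u1 + zn • u2 = 0 := by rw [← hpn]; exact hp0
  obtain ⟨p1, p2, p3⟩ := obtuse_coeff_zero u0 u1 u2 u3 h03 h13 h23 xp yp zp hxp hyp hzp hp0
  obtain ⟨n1, n2, n3⟩ := obtuse_coeff_zero u0 u1 u2 u3 h03 h13 h23 xn yn zn hxn hyn hzn hn0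
  refine ⟨?_, ?_, ?_⟩
  · rw [hx, p1, n1, sub_zero]
  · rw [hy, p2, n2, sub_zero]
  · rw [hz, p3, n3, sub_zero]

theorem exists_nonneg_inner_of_four (W : Submodule ℝ E) (hW : Module.finrank ℝ W ≤ 2)
    (v : Fin 4 → E) (hv : ∀ i, v i ∈ W) : ∃ i j, i ≠ j ∧ 0 ≤ ⟪v i, v j⟫ := by
  by_contra hcon
  have hneg : ∀ i j, i ≠ j → ⟪v i, v j⟫ < 0 := by
    intro i j hij
    by_contra h
    exact hcon ⟨i, j, hij, not_lt.1 h⟩
  have hdep : ¬ LinearIndependent ℝ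
      (![⟨v 0, hv 0⟩, ⟨v 1, hv 1⟩, ⟨v 2, hv 2⟩] : Fin 3 → W) := by
    intro hli
    have h3 := hli.fintype_card_le_finrank
    rw [Fintype.card_fin] at h3
    omega
  rw [Fintype.not_linearIndependent_iff] at hdep
  obtain ⟨a, ha, i0, hi0⟩ := hdep
  have ha' : a 0 • v 0 + a 1 • v 1 + a 2 • v 2 = 0 := by
    have h := congrArg (fun w : W => (w : E)) ha
    simpa [Fin.sum_univ_three] using h
  obtain ⟨z0, z1, z2⟩ := obtuse_aux (v 0) (v 1) (v 2) (v 3)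
    (hneg 0 1 (by decide)) (hneg 0 2 (by decide)) (hneg 1 2 (by decide))
    (hneg 0 3 (by decide)) (hneg 1 3 (by decide)) (hneg 2 3 (by decide)) (a 0) (a 1) (a 2) ha'
  fin_cases i0
  · exact hi0 z0
  · exact hi0 z1
  · exact hi0 z2

end Vale.Agent.Lib.P226
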