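import Vale.Agent.Lib.P226.Dust.Final
import Vale.Agent.Lib.P226.Dust.Obtuse

/-!
# P226 / Dust: any number of cells with first moments in a common plane, plus tiny cells
-/

open MeasureTheory ProbabilityTheory
open scoped RealInnerProductSpace

namespace Vale.Agent.Lib.P226

section planarSets

variable {E : Type*} {ι : Type*} [DecidableEq ι]

/-- the merged family: cell `j` is emptied and its points are added to cell `i` -/
def planarMerge (A : ι → Set E) (i j : ι) : ι → Set E :=
  fun l => if l = j then ∅ else if l = i then A i ∪ A j else A l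

lemma planarMerge_right (A : ι → Set E) (i j : ι) : planarMerge A i j j = ∅ := by
  simp [planarMerge]

lemma planarMerge_left (A : ι → Set E) {i j : ι} (hij : i ≠ j) :
    planarMerge A i j i = A i ∪ A j := by
  simp [planarMerge, hij]

lemma planarMerge_other (A : ι → Set E) {i j l : ι} (hli : l ≠ i) (hlj : l ≠ j) :
    planarMerge A i j l = A l := by
  simp [planarMerge, hli, hlj]

lemma planarMerge_disjoint (A : ι → Set E)
    (hdisj : Pairwise (fun i j => Disjoint (A i) (A j))) {i j : ι} (hij : i ≠ j) :
    Pairwise (fun l m => Disjoint (planarMerge A i j l) (planarMerge A i j m)) := by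
  intro l m hlm
  show Disjoint (planarMerge A i j l) (planarMerge A i j m)
  by_cases hlj : l = j
  · rw [hlj, planarMerge_right]
    exact Set.empty_disjoint _
  by_cases hmj : m = j
  · rw [hmj, planarMerge_right]
    exact Set.disjoint_empty _
  by_cases hli : l = i
  · have hmi : m ≠ i := fun h => hlm (hli.trans h.symm)
    rw [hli, planarMerge_left A hij, planarMerge_other A hmi hmj]
    exact Disjoint.union_left (hdisj (Ne.symm hmi)) (hdisj (Ne.symm hmj))
  by_cases hmi : m = i
  · rw [hmi, planarMerge_left A hij, planarMerge_other A hli hlj]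
    exact Disjoint.union_right (hdisj hli) (hdisj hlj)
  · rw [planarMerge_other A hli hlj, planarMerge_other A hmi hmj]
    exact hdisj hlm

lemma planarMerge_measurable [MeasurableSpace E] (A : ι → Set E)
    (hmeas : ∀ i, MeasurableSet (A i)) (i j l : ι) :
    MeasurableSet (planarMerge A i j l) := by
  unfold planarMerge
  split_ifs
  · exact MeasurableSet.empty
  · exact (hmeas i).union (hmeas j)
  · exact hmeas l

lemma planar_sum_le [Fintype ι] (f f' : ι → ℝ) {i j : ι} (hij : i ≠ j)
    (hother : ∀ l, l ≠ i → l ≠ j → f l = f' l) (hle : f i + f j ≤ f' i + f' j) :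
    ∑ l, f l ≤ ∑ l, f' l := by
  have hi : i ∈ (Finset.univ : Finset ι) := Finset.mem_univ i
  have hj : j ∈ (Finset.univ : Finset ι).erase i :=
    Finset.mem_erase.mpr ⟨Ne.symm hij, Finset.mem_univ j⟩
  rw [← Finset.add_sum_erase _ f hi, ← Finset.add_sum_erase _ f hj,
    ← Finset.add_sum_erase _ f' hi, ← Finset.add_sum_erase _ f' hj]
  have hrest : ∑ x ∈ ((Finset.univ : Finset ι).erase i).erase j, f x
      = ∑ x ∈ ((Finset.univ : Finset ι).erase i).erase j, f' x := by
    refine Finset.sum_congr rfl fun x hx => ?_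
    rw [Finset.mem_erase, Finset.mem_erase] at hx
    exact hother x hx.2.1 hx.1
  rw [hrest]
  linarith

end planarSets

variable {E : Type*} [NormedAddCommGroup E] [InnerProductSpace ℝ E] [FiniteDimensional ℝ E]
  [MeasurableSpace E] [BorelSpace E]

lemma planar_zmom_union {S T : Set E} (hST : Disjoint S T) (hT : MeasurableSet T) :
    (∫ x in S ∪ T, x ∂(stdGaussian E))
      = (∫ x in S, x ∂(stdGaussian E)) + ∫ x in T, x ∂(stdGaussian E) := by
  have hint : Integrable (fun x : E => x) (stdGaussian E) := IsGaussian.integrable_fun_id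
  exact setIntegral_union hST hT hint.integrableOn hint.integrableOn

lemma planar_aux {ι : Type*} [Fintype ι] (W : Submodule ℝ E) (hW : Module.finrank ℝ W ≤ 2) :
    ∀ (n : ℕ) (A : ι → Set E) (T : Finset ι), T.card = n →
      (∀ i, MeasurableSet (A i)) → Pairwise (fun i j => Disjoint (A i) (A j)) →
      (∀ i ∈ T, (∫ x in A i, x ∂(stdGaussian E)) ∈ W) →
      (∀ i, i ∉ T → (stdGaussian E).real (A i) ≤ 1 / 10 ^ 11) →
      ∑ i, ‖∫ x in A i, x ∂(stdGaussian E)‖ ^ 2 ≤ 9 / (8 * Real.pi) := by
  classical
  intro n
  induction n using Nat.strong_induction_on with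
  | _ n ih =>
    intro A T hcard hmeas hdisj hTW hsmall
    by_cases h3 : T.card ≤ 3
    · exact dust_finset A hmeas hdisj T h3 hsmall
    · have h4 : 4 ≤ T.card := by omega
      obtain ⟨S, hST, hScard⟩ := Finset.exists_subset_card_eq h4
      have e : S ≃ Fin 4 := Finset.equivFinOfCardEq hScard
      obtain ⟨a, b, hab, hinner⟩ := exists_nonneg_inner_of_four W hW
        (fun k => ∫ x in A (e.symm k).1, x ∂(stdGaussian E))
        (fun k => hTW _ (hST (e.symm k).2))
      obtain ⟨i, hi⟩ : ∃ i, i = (e.symm a).1 := ⟨_, rfl⟩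
      obtain ⟨j, hj⟩ : ∃ j, j = (e.symm b).1 := ⟨_, rfl⟩
      have hinner' : 0 ≤ ⟪∫ x in A i, x ∂(stdGaussian E), ∫ x in A j, x ∂(stdGaussian E)⟫ := by
        rw [hi, hj]
        exact hinner
      have hij : i ≠ j := by
        intro h
        apply hab
        apply e.symm.injective
        apply Subtype.ext
        rw [← hi, ← hj]
        exact h
      have hiT : i ∈ T := by
        rw [hi]
        exact hST (e.symm a).2
      have hjT : j ∈ T := by
        rw [hj]
        exact hST (e.symm b).2
      have hlt : (T.erase j).card < n := by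
        rw [Finset.card_erase_of_mem hjT]
        omega
      have hzi : (∫ x in planarMerge A i j i, x ∂(stdGaussian E))
          = (∫ x in A i, x ∂(stdGaussian E)) + ∫ x in A j, x ∂(stdGaussian E) := by
        rw [planarMerge_left A hij]
        exact planar_zmom_union (hdisj hij) (hmeas j)
      have hzj : (∫ x in planarMerge A i j j, x ∂(stdGaussian E)) = 0 := by
        rw [planarMerge_right]
        exact setIntegral_empty
      have hTW' : ∀ l ∈ T.erase j, (∫ x in planarMerge A i j l, x ∂(stdGaussian E)) ∈ W := by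
        intro l hl
        rw [Finset.mem_erase] at hl
        by_cases hli : l = i
        · rw [hli, hzi]
          exact W.add_mem (hTW i hiT) (hTW j hjT)
        · rw [planarMerge_other A hli hl.1]
          exact hTW l hl.2
      have hsmall' : ∀ l, l ∉ T.erase j →
          (stdGaussian E).real (planarMerge A i j l) ≤ 1 / 10 ^ 11 := by
        intro l hl
        by_cases hlj : l = j
        · rw [hlj, planarMerge_right, measureReal_empty]
          positivity
        · have hlT : l ∉ T := fun h => hl (Finset.mem_erase.mpr ⟨hlj, h⟩)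
          have hli : l ≠ i := fun h => hlT (h ▸ hiT)
          rw [planarMerge_other A hli hlj]
          exact hsmall l hlT
      have key := ih (T.erase j).card hlt (planarMerge A i j) (T.erase j) rfl
        (planarMerge_measurable A hmeas i j) (planarMerge_disjoint A hdisj hij) hTW' hsmall'
      refine le_trans ?_ key
      apply planar_sum_le (fun l => ‖∫ x in A l, x ∂(stdGaussian E)‖ ^ 2)
        (fun l => ‖∫ x in planarMerge A i j l, x ∂(stdGaussian E)‖ ^ 2) hij
      · intro l hli hlj
        show ‖∫ x in A l, x ∂(stdGaussian E)‖ ^ 2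
          = ‖∫ x in planarMerge A i j l, x ∂(stdGaussian E)‖ ^ 2
        rw [planarMerge_other A hli hlj]
      · show ‖∫ x in A i, x ∂(stdGaussian E)‖ ^ 2 + ‖∫ x in A j, x ∂(stdGaussian E)‖ ^ 2
          ≤ ‖∫ x in planarMerge A i j i, x ∂(stdGaussian E)‖ ^ 2
            + ‖∫ x in planarMerge A i j j, x ∂(stdGaussian E)‖ ^ 2
        rw [hzi, hzj, norm_add_sq_real, norm_zero]
        linarith

theorem dust_planar {ι : Type*} [Fintype ι] (A : ι → Set E)
    (hmeas : ∀ i, MeasurableSet (A i))
    (hdisj : Pairwise (fun i j => Disjoint (A i) (A j)))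
    (T : Finset ι) (W : Submodule ℝ E) (hW : Module.finrank ℝ W ≤ 2)
    (hTW : ∀ i ∈ T, (∫ x in A i, x ∂(stdGaussian E)) ∈ W)
    (hsmall : ∀ i, i ∉ T → (stdGaussian E).real (A i) ≤ 1 / 10 ^ 11) :
    ∑ i, ‖∫ x in A i, x ∂(stdGaussian E)‖ ^ 2 ≤ 9 / (8 * Real.pi) :=
  planar_aux W hW T.card A T rfl hmeas hdisj hTW hsmall

end Vale.Agent.Lib.P226
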