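import Vale.Agent.Lib.P226.Dust.Defs

/-!
# P226 / Dust: the Gaussian mean of the maximum of three linear forms
-/

open MeasureTheory ProbabilityTheory
open scoped RealInnerProductSpace

namespace Vale.Agent.Lib.P226

variable {E : Type*} [NormedAddCommGroup E] [InnerProductSpace ℝ E] [FiniteDimensional ℝ E]
  [MeasurableSpace E] [BorelSpace E]

theorem integrable_tmax (a b c : E) : Integrable (tmax a b c) (stdGaussian E) :=
  (integrable_inner a).sup ((integrable_inner b).sup (integrable_inner c))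

/-- `E max(⟪u,g⟫, 0) = ‖u‖ / √(2π)`. -/
lemma threepoint_integral_posPart (u : E) :
    ∫ x, max ⟪u, x⟫ 0 ∂(stdGaussian E) = ‖u‖ * phi0 := by
  have h1 : ∫ y, max y 0 ∂((stdGaussian E).map (fun x => ⟪u, x⟫)) =
      ∫ x, max ⟪u, x⟫ 0 ∂(stdGaussian E) :=
    integral_map (by fun_prop) (by fun_prop)
  rw [← h1, map_inner_stdGaussian]
  have h2 := integral_posPart_scaled (norm_nonneg u) 0
  simp only [zero_mul, sub_zero] at h2
  rw [h2, hfun_zero]

lemma threepoint_integrable_posPart (u : E) :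
    Integrable (fun x : E => max ⟪u, x⟫ 0) (stdGaussian E) :=
  (integrable_inner u).pos_part

/-- `E |⟪u,g⟫| = 2 ‖u‖ / √(2π)`. -/
lemma threepoint_integral_abs (u : E) :
    ∫ x, |⟪u, x⟫| ∂(stdGaussian E) = 2 * ‖u‖ * phi0 := by
  have h : ∀ x : E, |⟪u, x⟫| = max ⟪u, x⟫ 0 + max ⟪-u, x⟫ 0 := by
    intro x
    rw [inner_neg_left]
    rcases le_total 0 ⟪u, x⟫ with h | h
    · rw [abs_of_nonneg h, max_eq_left h, max_eq_right (by linarith)]
      ring
    · rw [abs_of_nonpos h, max_eq_right h, max_eq_left (by linarith)]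
      ring
  have h2 : ∫ x, |⟪u, x⟫| ∂(stdGaussian E) =
      ∫ x, (max ⟪u, x⟫ 0 + max ⟪-u, x⟫ 0) ∂(stdGaussian E) :=
    integral_congr_ae (Filter.Eventually.of_forall h)
  rw [h2, integral_add (threepoint_integrable_posPart u) (threepoint_integrable_posPart (-u)),
    threepoint_integral_posPart, threepoint_integral_posPart, norm_neg]
  ring

/-- The largest minus the smallest of three reals is half the sum of their distances. -/
lemma threepoint_max_add (p q r : ℝ) :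
    max p (max q r) + max (-p) (max (-q) (-r)) = (|p - q| + |q - r| + |p - r|) / 2 := by
  rcases abs_cases (p - q) with ⟨e1, _⟩ | ⟨e1, _⟩ <;>
  rcases abs_cases (q - r) with ⟨e2, _⟩ | ⟨e2, _⟩ <;>
  rcases abs_cases (p - r) with ⟨e3, _⟩ | ⟨e3, _⟩ <;>
  rw [e1, e2, e3] <;> simp only [max_def] <;> split_ifs <;> linarith

/-- Symmetry of the standard Gaussian under `x ↦ -x`. -/
lemma threepoint_integral_neg (a b c : E) :
    ∫ x, tmax (-a) (-b) (-c) x ∂(stdGaussian E) = ∫ x, tmax a b c x ∂(stdGaussian E) := by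
  have hmap : (stdGaussian E).map (LinearIsometryEquiv.neg ℝ : E ≃ₗᵢ[ℝ] E) = stdGaussian E :=
    stdGaussian_map (LinearIsometryEquiv.neg ℝ)
  have hme : MeasurableEmbedding (LinearIsometryEquiv.neg ℝ : E ≃ₗᵢ[ℝ] E) :=
    (LinearIsometryEquiv.neg ℝ : E ≃ₗᵢ[ℝ] E).toHomeomorph.measurableEmbedding
  have h := hme.integral_map (μ := stdGaussian E) (tmax a b c)
  rw [hmap] at h
  rw [h]
  refine integral_congr_ae (Filter.Eventually.of_forall fun x => ?_)
  change tmax (-a) (-b) (-c) x = tmax a b c (-x)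
  rw [tmax_def, tmax_def, inner_neg_left, inner_neg_left, inner_neg_left, inner_neg_right,
    inner_neg_right, inner_neg_right]

/-- `E max(⟪a,g⟫, ⟪b,g⟫, ⟪c,g⟫) = (‖a - b‖ + ‖b - c‖ + ‖a - c‖) / (2 √(2π))`. -/
theorem integral_tmax (a b c : E) :
    ∫ x, tmax a b c x ∂(stdGaussian E) = (‖a - b‖ + ‖b - c‖ + ‖a - c‖) / 2 * phi0 := by
  have hsum : ∀ x : E, tmax a b c x + tmax (-a) (-b) (-c) x =
      (|⟪a - b, x⟫| + |⟪b - c, x⟫| + |⟪a - c, x⟫|) / 2 := by
    intro x
    rw [tmax_def, tmax_def, inner_neg_left, inner_neg_left, inner_neg_left, threepoint_max_add,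
      inner_sub_left, inner_sub_left, inner_sub_left]
  have h1 : ∫ x, tmax a b c x ∂(stdGaussian E) + ∫ x, tmax (-a) (-b) (-c) x ∂(stdGaussian E) =
      ∫ x, (|⟪a - b, x⟫| + |⟪b - c, x⟫| + |⟪a - c, x⟫|) / 2 ∂(stdGaussian E) := by
    rw [← integral_add (integrable_tmax a b c) (integrable_tmax (-a) (-b) (-c))]
    exact integral_congr_ae (Filter.Eventually.of_forall hsum)
  have i1 : Integrable (fun x : E => |⟪a - b, x⟫|) (stdGaussian E) := (integrable_inner _).abs
  have i2 : Integrable (fun x : E => |⟪b - c, x⟫|) (stdGaussian E) := (integrable_inner _).abs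
  have i3 : Integrable (fun x : E => |⟪a - c, x⟫|) (stdGaussian E) := (integrable_inner _).abs
  have h2 : ∫ x, (|⟪a - b, x⟫| + |⟪b - c, x⟫| + |⟪a - c, x⟫|) / 2 ∂(stdGaussian E) =
      (2 * ‖a - b‖ * phi0 + 2 * ‖b - c‖ * phi0 + 2 * ‖a - c‖ * phi0) / 2 := by
    have h3 : ∫ x, (|⟪a - b, x⟫| + |⟪b - c, x⟫| + |⟪a - c, x⟫|) ∂(stdGaussian E) =
        ∫ x, (|⟪a - b, x⟫| + |⟪b - c, x⟫|) ∂(stdGaussian E) +
          ∫ x, |⟪a - c, x⟫| ∂(stdGaussian E) := integral_add (i1.add i2) i3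
    have h4 : ∫ x, (|⟪a - b, x⟫| + |⟪b - c, x⟫|) ∂(stdGaussian E) =
        ∫ x, |⟪a - b, x⟫| ∂(stdGaussian E) + ∫ x, |⟪b - c, x⟫| ∂(stdGaussian E) :=
      integral_add i1 i2
    rw [integral_div, h3, h4, threepoint_integral_abs, threepoint_integral_abs,
      threepoint_integral_abs]
  rw [threepoint_integral_neg, h2] at h1
  linarith

end Vale.Agent.Lib.P226
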